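import Vale.Agent.P267.H181.Frm
import Vale.Agent.P267.H877.Trans

/-!
# P267, package XA-FRAMES (helper181), part 5: periodic covers and partitions of unity

`PCov D`: finitely many chart polydiscs whose translates cover `M`.
`PCov.rho`: a periodic partition of unity.
-/

set_option linter.unusedSectionVars false

open Filter Topology Set Metric
open scoped ContDiff Manifold ComplexConjugate Matrix

noncomputable section

namespace Vale.Agent.P267.H181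

open FL XT

variable {M : Type} [TopologicalSpace M] [ChartedSpace C2 M]

/-- the translates of polydiscs that can meet a neighbourhood of a point -/
def ks (D : XTData M) (x : M) : Finset ℤ := Finset.Icc (⌊D.f x⌋ - 3) (⌈D.f x⌉ + 3)

/-- finitely many chart polydiscs whose translates cover `M` -/
structure PCov (D : XTData M) where
  /-- number of polydiscs -/
  N : ℕ
  /-- centres -/
  x₀ : Fin N → M
  /-- radii -/
  R : Fin N → ℝ
  R_pos : ∀ i, 0 < R i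
  sub : ∀ i, closedBall (chartAt C2 (x₀ i) (x₀ i)) (R i) ⊆ (chartAt C2 (x₀ i)).target
  f_bd : ∀ i, ∀ z ∈ closedBall (chartAt C2 (x₀ i) (x₀ i)) (R i),
    |D.f ((chartAt C2 (x₀ i)).symm z)| ≤ 2
  cover : ∀ x : M, ∃ (i : Fin N) (k : ℤ),
    D.sh (-k) x ∈ (chartAt C2 (x₀ i)).symm '' ball (chartAt C2 (x₀ i) (x₀ i)) (R i / 8)

namespace PCov

variable {D : XTData M} (𝒰 : PCov D)

/-- the charts -/
def e (i : Fin 𝒰.N) : Ch M := chartAt C2 (𝒰.x₀ i)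

/-- the centres in the charts -/
def c (i : Fin 𝒰.N) : C2 := 𝒰.e i (𝒰.x₀ i)

/-- the polydisc of radius `t R i` in `M` -/
def B (i : Fin 𝒰.N) (t : ℝ) : Set M := (𝒰.e i).symm '' ball (𝒰.c i) (t * 𝒰.R i)

/-- the closed polydisc of radius `t R i` in `M` -/
def Bc (i : Fin 𝒰.N) (t : ℝ) : Set M := (𝒰.e i).symm '' closedBall (𝒰.c i) (t * 𝒰.R i)

theorem e_mem (i : Fin 𝒰.N) : 𝒰.e i ∈ atlas C2 M := chart_mem_atlas C2 _

theorem x₀_mem (i : Fin 𝒰.N) : 𝒰.x₀ i ∈ (𝒰.e i).source := mem_chart_source C2 _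

theorem sub' (i : Fin 𝒰.N) {t : ℝ} (ht : t ≤ 1) : closedBall (𝒰.c i) (t * 𝒰.R i) ⊆ (𝒰.e i).target :=
  (closedBall_subset_closedBall (by nlinarith [𝒰.R_pos i])).trans (𝒰.sub i)

theorem ball_sub (i : Fin 𝒰.N) {t : ℝ} (ht : t ≤ 1) : ball (𝒰.c i) (t * 𝒰.R i) ⊆ (𝒰.e i).target :=
  ball_subset_closedBall.trans (𝒰.sub' i ht)

theorem B_sub (i : Fin 𝒰.N) (t : ℝ) : 𝒰.B i t ⊆ 𝒰.Bc i t := image_mono ball_subset_closedBall

theorem B_mono (i : Fin 𝒰.N) {s t : ℝ} (h : s ≤ t) : 𝒰.B i s ⊆ 𝒰.B i t :=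
  image_mono (ball_subset_ball (by nlinarith [𝒰.R_pos i]))

theorem Bc_mono (i : Fin 𝒰.N) {s t : ℝ} (h : s ≤ t) : 𝒰.Bc i s ⊆ 𝒰.Bc i t :=
  image_mono (closedBall_subset_closedBall (by nlinarith [𝒰.R_pos i]))

theorem Bc_sub_B (i : Fin 𝒰.N) {s t : ℝ} (h : s < t) : 𝒰.Bc i s ⊆ 𝒰.B i t :=
  image_mono (closedBall_subset_ball (by nlinarith [𝒰.R_pos i]))

theorem isOpen_B (i : Fin 𝒰.N) {t : ℝ} (ht : t ≤ 1) : IsOpen (𝒰.B i t) :=
  (𝒰.e i).isOpen_image_symm_of_subset_target isOpen_ball (𝒰.ball_sub i ht)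

theorem isCompact_Bc (i : Fin 𝒰.N) {t : ℝ} (ht : t ≤ 1) : IsCompact (𝒰.Bc i t) :=
  (isCompact_closedBall _ _).image_of_continuousOn
    ((𝒰.e i).continuousOn_symm.mono (𝒰.sub' i ht))

theorem Bc_source (i : Fin 𝒰.N) {t : ℝ} (ht : t ≤ 1) : 𝒰.Bc i t ⊆ (𝒰.e i).source :=
  symm_image_subset (𝒰.sub' i ht)

theorem mem_B {i : Fin 𝒰.N} {t : ℝ} (ht : t ≤ 1) {x : M} :
    x ∈ 𝒰.B i t ↔ x ∈ (𝒰.e i).source ∧ 𝒰.e i x ∈ ball (𝒰.c i) (t * 𝒰.R i) := by
  constructor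
  · rintro ⟨z, hz, rfl⟩
    have := 𝒰.ball_sub i ht hz
    exact ⟨(𝒰.e i).map_target this, by rwa [(𝒰.e i).right_inv this]⟩
  · rintro ⟨h1, h2⟩
    exact ⟨_, h2, (𝒰.e i).left_inv h1⟩

theorem f_bd' {i : Fin 𝒰.N} {t : ℝ} (ht : t ≤ 1) {x : M} (hx : x ∈ 𝒰.Bc i t) : |D.f x| ≤ 2 := by
  obtain ⟨z, hz, rfl⟩ := 𝒰.Bc_mono i ht hx
  rw [one_mul] at hz
  exact 𝒰.f_bd i z hz

/-- a translate `γ^k B_i` contains `x` only if `|f x - k| ≤ 2` -/
theorem abs_le {i : Fin 𝒰.N} {t : ℝ} (ht : t ≤ 1) {x : M} {k : ℤ} (hx : D.sh (-k) x ∈ 𝒰.Bc i t) :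
    |D.f x - k| ≤ 2 := by
  have := 𝒰.f_bd' ht hx
  rw [D.f_sh] at this
  push_cast at this
  rwa [← sub_eq_add_neg] at this

theorem mem_ks {x y : M} (hy : |D.f y - D.f x| ≤ 1) {i : Fin 𝒰.N} {t : ℝ} (ht : t ≤ 1) {k : ℤ}
    (h : D.sh (-k) y ∈ 𝒰.Bc i t) : k ∈ ks D x := by
  have h1 := 𝒰.abs_le ht h
  rw [_root_.abs_le] at h1 hy
  rw [ks, Finset.mem_Icc]
  constructor
  · have h2 : D.f x ≤ k + 3 := by linarith [h1.2, hy.1]
    have h3 : (⌊D.f x⌋ : ℝ) ≤ ((k + 3 : ℤ) : ℝ) := by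
      push_cast
      exact (Int.floor_le _).trans h2
    have h4 : ⌊D.f x⌋ ≤ k + 3 := by exact_mod_cast h3
    linarith
  · have h2 : (k : ℝ) - 3 ≤ D.f x := by linarith [h1.1, hy.2]
    have h3 : ((k - 3 : ℤ) : ℝ) ≤ (⌈D.f x⌉ : ℝ) := by
      push_cast
      exact h2.trans (Int.le_ceil _)
    have h4 : k - 3 ≤ ⌈D.f x⌉ := by exact_mod_cast h3
    linarith

theorem finite_meet (i : Fin 𝒰.N) (x : M) : {k : ℤ | D.sh (-k) x ∈ 𝒰.Bc i 1}.Finite :=
  (ks D x).finite_toSet.subset fun k hk => by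
    exact Finset.mem_coe.2 (𝒰.mem_ks (by simp) le_rfl hk)

end PCov

variable [IsManifold 𝓘(ℂ, C2) ω M]

theorem continuous_f (D : XTData M) : Continuous D.f := by
  have h := D.f_smooth.continuous
  have : D.f = fun x => ((D.f x : ℂ)).re := by funext x; simp
  rw [this]
  exact Complex.continuous_re.comp h

/-- **Existence of periodic covers** with polydiscs as small as one likes: `G x r` is any condition
which holds for all sufficiently small radii `r`. -/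
theorem exists_pcov [T2Space M] (D : XTData M) {G : M → ℝ → Prop}
    (hG : ∀ x, ∃ r₀ > 0, ∀ r, 0 < r → r ≤ r₀ → G x r) :
    ∃ 𝒰 : PCov D, ∀ i, G (𝒰.x₀ i) (𝒰.R i) := by
  have hR : ∀ x : M, ∃ r > 0, closedBall (chartAt C2 x x) r ⊆ (chartAt C2 x).target ∧ G x r ∧
      ∀ z ∈ closedBall (chartAt C2 x x) r, |D.f ((chartAt C2 x).symm z) - D.f x| ≤ 1 := by
    intro x
    obtain ⟨r₀, hr₀, h⟩ := hG x
    have hx := mem_chart_source C2 x
    have hev : ∀ᶠ z in 𝓝 (chartAt C2 x x), z ∈ (chartAt C2 x).target ∧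
        |D.f ((chartAt C2 x).symm z) - D.f x| ≤ 1 := by
      refine Filter.Eventually.and ((chartAt C2 x).open_target.mem_nhds (mem_chart_target C2 x)) ?_
      have h1 : Tendsto (fun y => |D.f y - D.f x|) (𝓝 x) (𝓝 0) := by
        have h1 : Continuous fun y => |D.f y - D.f x| :=
          ((continuous_f D).sub continuous_const).abs
        have := h1.tendsto x
        simpa using this
      exact ((h1.comp (tendsto_symm_nhds hx)).eventually (Iio_mem_nhds one_pos)).mono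
        fun y hy => le_of_lt hy
    obtain ⟨r₁, hr₁, h1⟩ := Metric.nhds_basis_closedBall.mem_iff.1 hev
    have hsub : closedBall (chartAt C2 x x) (min r₀ r₁) ⊆ closedBall (chartAt C2 x x) r₁ :=
      closedBall_subset_closedBall (min_le_right _ _)
    exact ⟨min r₀ r₁, lt_min hr₀ hr₁, fun z hz => (h1 (hsub hz)).1,
      h _ (lt_min hr₀ hr₁) (min_le_left _ _), fun z hz => (h1 (hsub hz)).2⟩
  choose r hr hrt hrG hrf using hR
  obtain ⟨t, hts, htc⟩ := (D.isCompact_slab 0).elim_nhds_subcover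
    (fun x => (chartAt C2 x).symm '' ball (chartAt C2 x x) (r x / 8)) fun x _ => by
      have hsub : ball (chartAt C2 x x) (r x / 8) ⊆ (chartAt C2 x).target :=
        (ball_subset_closedBall.trans (closedBall_subset_closedBall
          (by linarith [hr x]))).trans (hrt x)
      refine ((chartAt C2 x).isOpen_image_symm_of_subset_target isOpen_ball hsub).mem_nhds ?_
      exact ⟨chartAt C2 x x, mem_ball_self (by linarith [hr x]),
        (chartAt C2 x).left_inv (mem_chart_source C2 x)⟩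
  set E := t.equivFin with hE
  refine ⟨{ N := t.card
            x₀ := fun i => ((E.symm i : t) : M)
            R := fun i => r ((E.symm i : t) : M)
            R_pos := fun i => hr _
            sub := fun i => hrt _
            f_bd := ?_
            cover := ?_ }, fun i => hrG _⟩
  · intro i z hz
    have h1 := hrf _ z hz
    have h2 := hts _ (E.symm i).2
    simp only [XTData.slab, mem_ofPred_eq, Int.cast_zero, zero_add] at h2
    rw [_root_.abs_le] at h1 ⊢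
    constructor <;> linarith [h1.1, h1.2, h2.1, h2.2]
  · intro x
    have h1 : D.sh (-⌊D.f x⌋) x ∈ D.slab 0 := by
      have h2 := (D.sh_mem_slab (j := ⌊D.f x⌋) (k := -⌊D.f x⌋) (x := x)).2 (D.mem_slab_floor x)
      simpa using h2
    obtain ⟨y, hy, hxy⟩ := mem_iUnion₂.1 (htc h1)
    refine ⟨E ⟨y, hy⟩, ⌊D.f x⌋, ?_⟩
    simp only [Equiv.symm_apply_apply]
    exact hxy

namespace PCov

variable {D : XTData M} (𝒰 : PCov D)

/-- the cut-off radii for the partition of unity -/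
def chi (i : Fin 𝒰.N) : ContDiffBump (0 : ℂ) :=
  ⟨𝒰.R i / 8, 𝒰.R i / 4, by linarith [𝒰.R_pos i], by linarith [𝒰.R_pos i]⟩

/-- unnormalised bump functions, complex valued -/
def bumpC (i : Fin 𝒰.N) : M → ℂ := ext0 0 (𝒰.e i) (fun z => cut (𝒰.chi i) (z - 𝒰.c i))

/-- unnormalised bump functions -/
def bump (i : Fin 𝒰.N) (x : M) : ℝ := (𝒰.bumpC i x).re

theorem chi_rOut (i : Fin 𝒰.N) : (𝒰.chi i).rOut = 1 / 4 * 𝒰.R i := by
  change 𝒰.R i / 4 = _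
  ring

theorem chi_rIn (i : Fin 𝒰.N) : (𝒰.chi i).rIn = 1 / 8 * 𝒰.R i := by
  change 𝒰.R i / 8 = _
  ring

theorem cut_off (i : Fin 𝒰.N) : ∀ z ∉ closedBall (𝒰.c i) (1 / 4 * 𝒰.R i),
    cut (𝒰.chi i) (z - 𝒰.c i) = 0 := fun z hz =>
  cut_sub_eq_zero (by rwa [𝒰.chi_rOut])

theorem reg0_bumpC [T2Space M] (i : Fin 𝒰.N) : Reg0 ∞ 0 (𝒰.bumpC i) :=
  reg0_ext0 (𝒰.e_mem i) (isCompact_closedBall _ _) (𝒰.sub' i (by norm_num)) (𝒰.cut_off i)
    fun z _ => ((cut_contDiff _).comp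
      (by fun_prop : ContDiff ℝ ∞ fun z : C2 => z - 𝒰.c i)).contDiffAt

theorem bumpC_eq (i : Fin 𝒰.N) (x : M) : 𝒰.bumpC i x = (𝒰.bump i x : ℂ) := by
  unfold bump bumpC
  by_cases h : x ∈ (𝒰.e i).source
  · rw [ext0_source_zero h, cut, Complex.ofReal_re]
  · rw [ext0_not_source h]
    simp

theorem bump_source {i : Fin 𝒰.N} {x : M} (h : x ∈ (𝒰.e i).source) :
    𝒰.bump i x = 𝒰.chi i ((𝒰.e i x - 𝒰.c i) 0) * 𝒰.chi i ((𝒰.e i x - 𝒰.c i) 1) := by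
  unfold bump bumpC
  rw [ext0_source_zero h, cut, Complex.ofReal_re]

theorem bump_nonneg (i : Fin 𝒰.N) (x : M) : 0 ≤ 𝒰.bump i x := by
  by_cases h : x ∈ (𝒰.e i).source
  · rw [𝒰.bump_source h]
    exact mul_nonneg (𝒰.chi i).nonneg (𝒰.chi i).nonneg
  · unfold bump bumpC
    rw [ext0_not_source h]
    simp

theorem bump_eq_zero {i : Fin 𝒰.N} {x : M} (h : x ∉ 𝒰.Bc i (1 / 4)) : 𝒰.bump i x = 0 := by
  unfold bump bumpC
  rw [ext0_eq_zero (K := closedBall (𝒰.c i) (1 / 4 * 𝒰.R i)) (𝒰.cut_off i) h]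
  simp

theorem bump_eq_one {i : Fin 𝒰.N} {x : M} (h : x ∈ 𝒰.B i (1 / 8)) : 𝒰.bump i x = 1 := by
  obtain ⟨h1, h2⟩ := (𝒰.mem_B (by norm_num)).1 h
  have h3 : cut (𝒰.chi i) (𝒰.e i x - 𝒰.c i) = 1 :=
    cut_sub_eq_one (ball_subset_closedBall (by rwa [𝒰.chi_rIn]))
  unfold bump bumpC
  rw [ext0_source_zero h1, h3]
  simp

/-- sum of all translates of the bump functions -/
def sig (x : M) : ℝ := ∑ i, ∑ᶠ k : ℤ, 𝒰.bump i (D.sh (-k) x)

theorem finsum_bump {x y : M} (hy : |D.f y - D.f x| ≤ 1) (i : Fin 𝒰.N) {F : M → ℝ}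
    (hF : ∀ z, z ∉ 𝒰.Bc i (1 / 4) → F z = 0) :
    ∑ᶠ k : ℤ, F (D.sh (-k) y) = ∑ k ∈ ks D x, F (D.sh (-k) y) := by
  refine finsum_eq_sum_of_support_subset _ fun k hk => ?_
  by_contra h
  refine hk (hF _ fun h2 => h ?_)
  exact Finset.mem_coe.2 (𝒰.mem_ks hy (by norm_num) h2)

theorem sig_eq {x y : M} (hy : |D.f y - D.f x| ≤ 1) :
    𝒰.sig y = ∑ i, ∑ k ∈ ks D x, 𝒰.bump i (D.sh (-k) y) :=
  Finset.sum_congr rfl fun i _ => 𝒰.finsum_bump hy i fun _ h => 𝒰.bump_eq_zero h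

theorem eventually_f (D : XTData M) (x : M) : ∀ᶠ y in 𝓝 x, |D.f y - D.f x| ≤ 1 := by
  have h : Tendsto (fun y => |D.f y - D.f x|) (𝓝 x) (𝓝 0) := by
    have h1 : Continuous fun y => |D.f y - D.f x| := ((continuous_f D).sub continuous_const).abs
    have := h1.tendsto x
    simpa using this
  exact (h.eventually (Iio_mem_nhds one_pos)).mono fun y hy => le_of_lt hy

theorem at0_sig [T2Space M] (x : M) : At0 ∞ 0 (fun y => (𝒰.sig y : ℂ)) x := by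
  have h1 : At0 ∞ 0 (fun y => ∑ i, ∑ k ∈ ks D x, 𝒰.bumpC i (D.sh (-k) y)) x :=
    At0.sum fun i _ => At0.sum fun k _ =>
      ((D.chartMap_sh (-k)).reg0_comp (𝒰.reg0_bumpC i)).at x
  refine h1.congr ?_
  filter_upwards [eventually_f D x] with y hy
  rw [𝒰.sig_eq hy]
  push_cast
  simp only [bumpC_eq]

theorem sig_pos (x : M) : 0 < 𝒰.sig x := by
  have h0 : |D.f x - D.f x| ≤ 1 := by simp
  rw [𝒰.sig_eq h0]
  obtain ⟨i, k, hk⟩ := 𝒰.cover x
  have hk' : D.sh (-k) x ∈ 𝒰.B i (1 / 8) := by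
    obtain ⟨z, hz, hzx⟩ := hk
    refine ⟨z, ?_, hzx⟩
    have : (1 / 8 : ℝ) * 𝒰.R i = 𝒰.R i / 8 := by ring
    rw [this]
    exact hz
  refine Finset.sum_pos' (fun i _ => Finset.sum_nonneg fun k _ => 𝒰.bump_nonneg i _)
    ⟨i, Finset.mem_univ i, ?_⟩
  refine Finset.sum_pos' (fun k _ => 𝒰.bump_nonneg i _) ⟨k, ?_, ?_⟩
  · exact 𝒰.mem_ks h0 (by norm_num : (1 / 8 : ℝ) ≤ 1) (𝒰.B_sub i _ hk')
  · rw [𝒰.bump_eq_one hk']
    exact one_pos

theorem sig_sh (l : ℤ) (x : M) : 𝒰.sig (D.sh l x) = 𝒰.sig x := by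
  unfold sig
  refine Finset.sum_congr rfl fun i _ => ?_
  rw [← finsum_comp_equiv (Equiv.addRight l)]
  refine finsum_congr fun k => ?_
  rw [← D.sh_add]
  congr 2
  simp

/-- **the partition of unity** -/
def rho (i : Fin 𝒰.N) (x : M) : ℝ := 𝒰.bump i x / 𝒰.sig x

theorem rho_nonneg (i : Fin 𝒰.N) (x : M) : 0 ≤ 𝒰.rho i x :=
  div_nonneg (𝒰.bump_nonneg i x) (𝒰.sig_pos x).le

theorem rho_eq_zero {i : Fin 𝒰.N} {x : M} (h : x ∉ 𝒰.Bc i (1 / 4)) : 𝒰.rho i x = 0 := by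
  rw [rho, 𝒰.bump_eq_zero h, zero_div]

theorem reg0_rho [T2Space M] (i : Fin 𝒰.N) : Reg0 ∞ 0 (fun x => (𝒰.rho i x : ℂ)) := by
  refine reg0_iff_at.2 fun x => ?_
  have h1 : At0 ∞ 0 (fun y => 𝒰.bumpC i y * ((𝒰.sig y : ℂ))⁻¹) x := by
    refine ((𝒰.reg0_bumpC i).at x).mul ((𝒰.at0_sig x).inv0 ?_)
    exact_mod_cast (𝒰.sig_pos x).ne'
  refine h1.congr (Eventually.of_forall fun y => ?_)
  simp only [rho, bumpC_eq, div_eq_mul_inv, Complex.ofReal_mul, Complex.ofReal_inv]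

theorem support_rho (i : Fin 𝒰.N) : Function.support (𝒰.rho i) ⊆ 𝒰.Bc i (1 / 4) := by
  intro x hx
  by_contra h
  exact hx (𝒰.rho_eq_zero h)

theorem tsupport_rho [T2Space M] (i : Fin 𝒰.N) : tsupport (𝒰.rho i) ⊆ 𝒰.Bc i (1 / 4) :=
  closure_minimal (𝒰.support_rho i) (𝒰.isCompact_Bc i (by norm_num)).isClosed

theorem hasCompactSupport_rho [T2Space M] (i : Fin 𝒰.N) : HasCompactSupport (𝒰.rho i) :=
  (𝒰.isCompact_Bc i (by norm_num)).of_isClosed_subset (isClosed_tsupport _) (𝒰.tsupport_rho i)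

/-- the translates of the `rho i` sum up to one (the sum over `ks x` may be used for all `y` with
`|f y - f x| ≤ 1`) -/
theorem sum_rho {x y : M} (hy : |D.f y - D.f x| ≤ 1) :
    ∑ i, ∑ k ∈ ks D x, 𝒰.rho i (D.sh (-k) y) = 1 := by
  have h1 : ∀ i k, 𝒰.rho i (D.sh (-k) y) = 𝒰.bump i (D.sh (-k) y) / 𝒰.sig y := by
    intro i k
    rw [rho, 𝒰.sig_sh]
  simp only [h1, ← Finset.sum_div]
  rw [← 𝒰.sig_eq hy]
  exact div_self (𝒰.sig_pos y).ne'

theorem finsum_rho (x : M) : ∑ i, ∑ᶠ k : ℤ, 𝒰.rho i (D.sh (-k) x) = 1 := by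
  have h0 : |D.f x - D.f x| ≤ 1 := by simp
  rw [← 𝒰.sum_rho h0]
  exact Finset.sum_congr rfl fun i _ => 𝒰.finsum_bump h0 i fun _ h => 𝒰.rho_eq_zero h

theorem rho_le_one (i : Fin 𝒰.N) (x : M) : 𝒰.rho i x ≤ 1 := by
  have h0 : |D.f x - D.f x| ≤ 1 := by simp
  by_cases h : x ∈ 𝒰.Bc i (1 / 4)
  · have h1 := 𝒰.sum_rho h0
    have h2 : (0 : ℤ) ∈ ks D x := by
      refine 𝒰.mem_ks h0 (t := 1 / 4) (i := i) (by norm_num) ?_
      simpa using h
    have h3 : 𝒰.rho i x ≤ ∑ k ∈ ks D x, 𝒰.rho i (D.sh (-k) x) := by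
      have := Finset.single_le_sum (f := fun k => 𝒰.rho i (D.sh (-k) x))
        (fun k _ => 𝒰.rho_nonneg i _) h2
      simpa using this
    refine h3.trans ?_
    rw [← h1]
    exact Finset.single_le_sum (f := fun i => ∑ k ∈ ks D x, 𝒰.rho i (D.sh (-k) x))
      (fun i _ => Finset.sum_nonneg fun k _ => 𝒰.rho_nonneg i _) (Finset.mem_univ i)
  · rw [𝒰.rho_eq_zero h]
    exact zero_le_one

end PCov

end Vale.Agent.P267.H181
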