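import Vale.Agent.P267.H181.Ext
import Vale.Agent.P267.H378.NF

/-!
# P267, package XA-FRAMES (helper181), part 3: `∂̄_L² = 0`

Calculus of the operators `db0`, `db1` of a holomorphic line bundle `(L, a)` (rank one projectors).
-/

set_option linter.unusedSectionVars false

open Filter Topology Set Metric
open scoped ContDiff Manifold ComplexConjugate Matrix

noncomputable section

namespace Vale.Agent.P267.H181

open FL H378

variable {X : Type*} [TopologicalSpace X] [ChartedSpace C2 X] [IsManifold 𝓘(ℂ, C2) ω X]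
variable {ι : Type} [Fintype ι] [DecidableEq ι]



theorem act_apply (M : Matrix ι ι ℂ) (v : EuclideanSpace ℂ ι) (i : ι) : LB.act M v i = ∑ j, M i j * v j := rfl

theorem act_mul (M N : Matrix ι ι ℂ) (v : EuclideanSpace ℂ ι) : LB.act (M * N) v = LB.act M (LB.act N v) := by
  ext i
  simp only [LB.act, ← Matrix.mulVec_mulVec]

theorem act_zero (M : Matrix ι ι ℂ) : LB.act M (0 : EuclideanSpace ℂ ι) = 0 := by
  have := act_smul M 0 (0 : EuclideanSpace ℂ ι)
  simpa using this

theorem act_Madd (M N : Matrix ι ι ℂ) (v : EuclideanSpace ℂ ι) : LB.act (M + N) v = LB.act M v + LB.act N v := by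
  ext i
  simp [LB.act, Matrix.add_mulVec]

theorem act_Msub (M N : Matrix ι ι ℂ) (v : EuclideanSpace ℂ ι) : LB.act (M - N) v = LB.act M v - LB.act N v := by
  ext i
  simp [LB.act, Matrix.sub_mulVec]

/-- components -/
def prj (i : ι) : EuclideanSpace ℂ ι →L[ℂ] ℂ := EuclideanSpace.proj i

omit [DecidableEq ι] in
theorem prj_apply (i : ι) (v : EuclideanSpace ℂ ι) : prj i v = v i := rfl

omit [DecidableEq ι] in
theorem at0_comp {n : WithTop ℕ∞} {κ : ℤ} {s : X → EuclideanSpace ℂ ι} {x : X} (h : At0 n κ s x) (i : ι) :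
    At0 n κ (fun y => s y i) x := h.clm (prj i)

omit [IsManifold 𝓘(ℂ, C2) ω X] [DecidableEq ι] in
theorem at0_of_comp {n : WithTop ℕ∞} {κ : ℤ} {s : X → EuclideanSpace ℂ ι} {x : X}
    (h : ∀ i, At0 n κ (fun y => s y i) x) : At0 n κ s x := by
  rw [At0, contDiffAt_piLp]
  exact h

omit [DecidableEq ι] in
theorem at1_comp {n : WithTop ℕ∞} {κ : ℤ} {s : X → Fin 2 → EuclideanSpace ℂ ι} {x : X} (h : At1 n κ s x) (i : ι) :
    At1 n κ (fun y k => s y k i) x := h.clm (prj i)

omit [DecidableEq ι] in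
theorem at1_of_comp {n : WithTop ℕ∞} {κ : ℤ} {s : X → Fin 2 → EuclideanSpace ℂ ι} {x : X}
    (h : ∀ i, At1 n κ (fun y k => s y k i) x) : At1 n κ s x := by
  rw [At1, contDiffAt_pi]
  intro k
  rw [contDiffAt_piLp]
  intro i
  have := (contDiffAt_pi.1 (h i)) k
  refine this.congr_of_eventuallyEq (Eventually.of_forall fun z => ?_)
  change prj i (loc1 κ (chartAt C2 x) s z k) = _
  simp only [loc1, map_smul, map_sum]
  rfl

omit [DecidableEq ι] in
theorem dbar0_comp {κ : ℤ} {s : X → EuclideanSpace ℂ ι} {x : X} (h : At0 1 κ s x) (k : Fin 2) (i : ι) :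
    (dbar0 κ s x k) i = dbar0 κ (fun y => s y i) x k := (dbar0_clm (prj i) h k).symm

omit [DecidableEq ι] in
theorem dbar1_comp {κ : ℤ} {w : X → Fin 2 → EuclideanSpace ℂ ι} {x : X} (h : At1 1 κ w x) (i : ι) :
    (dbar1 κ w x) i = dbar1 κ (fun y k => w y k i) x := (dbar1_clm (prj i) h).symm

/-- `∂̄_k P` -/
def dP (L : LB X ι) (x : X) (k : Fin 2) : Matrix ι ι ℂ :=
  Matrix.of fun i j => dbar0 0 (fun y => L.P y i j) x k

theorem at0_P (L : LB X ι) (x : X) (i j : ι) (n : WithTop ℕ∞) (hn : n ≤ ∞) :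
    At0 n 0 (fun y => L.P y i j) x := ((L.smooth i j).at x).of_le hn

/-- Leibniz rule for `P s` -/
theorem at0_act (L : LB X ι) {n : WithTop ℕ∞} (hn : n ≤ ∞) {κ : ℤ} {s : X → EuclideanSpace ℂ ι} {x : X}
    (h : At0 n κ s x) : At0 n κ (fun y => LB.act (L.P y) (s y)) x := by
  refine at0_of_comp fun i => ?_
  simp only [act_apply]
  exact At0.sum fun j _ => (at0_P L x i j n hn).mul (at0_comp h j)

theorem dbar0_act (L : LB X ι) {κ : ℤ} {s : X → EuclideanSpace ℂ ι} {x : X} (h : At0 1 κ s x) (k : Fin 2) :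
    dbar0 κ (fun y => LB.act (L.P y) (s y)) x k =
      LB.act (dP L x k) (s x) + LB.act (L.P x) (dbar0 κ s x k) := by
  ext i
  rw [dbar0_comp (at0_act L (by simp) h)]
  simp only [act_apply, PiLp.add_apply]
  rw [dbar0_sum fun j _ => (at0_P L x i j 1 (by simp)).mul (at0_comp h j), Finset.sum_apply,
    ← Finset.sum_add_distrib]
  refine Finset.sum_congr rfl fun j _ => ?_
  rw [dbar0_mul (at0_P L x i j 1 (by simp)) (at0_comp h j), dbar0_comp h]
  rfl

theorem at1_act (L : LB X ι) {n : WithTop ℕ∞} (hn : n ≤ ∞) {κ : ℤ} {w : X → Fin 2 → EuclideanSpace ℂ ι} {x : X}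
    (h : At1 n κ w x) : At1 n κ (fun y k => LB.act (L.P y) (w y k)) x := by
  refine at1_of_comp fun i => ?_
  have h1 : At1 n κ (fun y => ∑ j, (fun k => L.P y i j • w y k j)) x :=
    At1.sum fun j _ => At1.smul (at0_P L x i j n hn) (at1_comp h j)
  refine h1.congr (Eventually.of_forall fun y => ?_)
  funext k
  simp only [act_apply, Finset.sum_apply, smul_eq_mul]

theorem dbar1_act (L : LB X ι) {κ : ℤ} {w : X → Fin 2 → EuclideanSpace ℂ ι} {x : X} (h : At1 1 κ w x) :
    dbar1 κ (fun y k => LB.act (L.P y) (w y k)) x =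
      (LB.act (dP L x 0) (w x 1) - LB.act (dP L x 1) (w x 0)) + LB.act (L.P x) (dbar1 κ w x) := by
  ext i
  rw [dbar1_comp (at1_act L (by simp) h)]
  have h1 : (fun (y : X) (k : Fin 2) => (LB.act (L.P y) (w y k)) i) =
      fun y => ∑ j, (fun k => L.P y i j • w y k j) := by
    funext y k
    simp only [act_apply, Finset.sum_apply, smul_eq_mul]
  rw [h1, dbar1_sum fun j _ => At1.smul (at0_P L x i j 1 (by simp)) (at1_comp h j)]
  simp only [act_apply, PiLp.add_apply, PiLp.sub_apply]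
  rw [← Finset.sum_sub_distrib, ← Finset.sum_add_distrib]
  refine Finset.sum_congr rfl fun j _ => ?_
  rw [dbar1_smul (at0_P L x i j 1 (by simp)) (at1_comp h j), dbar1_comp h]
  simp only [dP, Matrix.of_apply, smul_eq_mul]

/-- `P (∂̄P) P = 0` -/
theorem P_dP_P (L : LB X ι) (x : X) (k : Fin 2) : L.P x * dP L x k * L.P x = 0 := by
  have h1 : dP L x k = dP L x k * L.P x + L.P x * dP L x k := by
    ext i j
    have h2 : (fun y => L.P y i j) = fun y => ∑ l, L.P y i l * L.P y l j := by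
      funext y
      conv_lhs => rw [← L.idem y]
      rw [Matrix.mul_apply]
    have h3 : dP L x k i j = dbar0 0 (fun y => L.P y i j) x k := rfl
    rw [h3, h2, dbar0_sum fun l _ => (at0_P L x i l 1 (by simp)).mul (at0_P L x l j 1 (by simp)),
      Finset.sum_apply]
    simp only [Matrix.add_apply, Matrix.mul_apply]
    rw [← Finset.sum_add_distrib]
    refine Finset.sum_congr rfl fun l _ => ?_
    rw [dbar0_mul (at0_P L x i l 1 (by simp)) (at0_P L x l j 1 (by simp))]
    rfl
  have h4 : L.P x * dP L x k * L.P x =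
      L.P x * dP L x k * L.P x + L.P x * dP L x k * L.P x := by
    calc L.P x * dP L x k * L.P x = L.P x * (dP L x k * L.P x + L.P x * dP L x k) * L.P x := by
          rw [← h1]
      _ = L.P x * dP L x k * (L.P x * L.P x) + (L.P x * L.P x) * dP L x k * L.P x := by
          rw [Matrix.mul_add, Matrix.add_mul]
          simp only [Matrix.mul_assoc]
      _ = _ := by rw [L.idem]
  exact left_eq_add.1 h4

/-- `P M P s = tr (P M) s` for a projector of rank one -/
theorem act_P_M {P : Matrix ι ι ℂ} (hh : Pᴴ = P) (hP : P * P = P) (ht : P.trace = 1)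
    (M : Matrix ι ι ℂ) {s : EuclideanSpace ℂ ι} (hs : LB.act P s = s) :
    LB.act P (LB.act M s) = (P * M).trace • s := by
  by_cases h0 : s = 0
  · subst h0
    simp [act_zero]
  have hn : (‖s‖ : ℂ) ≠ 0 := by exact_mod_cast norm_ne_zero_iff.2 h0
  have hentry : ∀ i j, P i j = s i * conj (s j) / (‖s‖ : ℂ) ^ 2 := by
    intro i j
    have h1 : LB.act P (LB.act P (EuclideanSpace.single j 1)) =
        LB.act P (EuclideanSpace.single j 1) := by rw [← act_mul, hP]
    have h2 := rank_one hh hP ht hs h0 h1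
    have h3 : (LB.act P (EuclideanSpace.single j (1 : ℂ))) i = P i j := by
      simp [act_apply]
    have h4 : inner ℂ s (LB.act P (EuclideanSpace.single j (1 : ℂ))) = conj (s j) := by
      have h5 : ∀ k, (LB.act P (EuclideanSpace.single j (1 : ℂ))) k = P k j := by
        intro k
        simp [act_apply]
      have h6 : conj ((LB.act P s) j) = conj (s j) := by rw [hs]
      rw [← h6, PiLp.inner_apply, act_apply, map_sum]
      refine Finset.sum_congr rfl fun k _ => ?_
      rw [h5, map_mul]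
      have h7 : P k j = conj (P j k) := by
        have := congrFun (congrFun hh k) j
        rw [← this]; rfl
      rw [h7]
      simp [inner]
    rw [← h3, h2, h4]
    simp
    ring
  ext i
  have e1 : (P * M).trace = (∑ j, ∑ k, conj (s j) * M j k * s k) / (‖s‖ : ℂ) ^ 2 := by
    rw [Matrix.trace]
    simp only [Matrix.diag_apply, Matrix.mul_apply, hentry]
    rw [Finset.sum_div, Finset.sum_comm]
    refine Finset.sum_congr rfl fun j _ => ?_
    rw [Finset.sum_div]
    refine Finset.sum_congr rfl fun k _ => ?_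
    ring
  rw [PiLp.smul_apply, e1, act_apply]
  simp only [act_apply, hentry, smul_eq_mul]
  rw [Finset.sum_div, Finset.sum_mul]
  refine Finset.sum_congr rfl fun j _ => ?_
  rw [Finset.mul_sum, Finset.sum_div, Finset.sum_mul]
  refine Finset.sum_congr rfl fun k _ => ?_
  ring

theorem F02_eq (L : LB X ι) (x : X) :
    L.F02 x = (L.P x * (dP L x 0 * dP L x 1 - dP L x 1 * dP L x 0)).trace := rfl

variable {L : LB X ι} {a : X → Fin 2 → ℂ} {κ : ℤ}

theorem at1_db0 {n m : WithTop ℕ∞} {s : X → EuclideanSpace ℂ ι} {x : X} (ha : At1 m 0 a x) (hm : m ≤ ∞)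
    (hs : At0 n κ s x) (hmn : m + 1 ≤ n) : At1 m κ (L.db0 a κ s) x := by
  have h1 : At1 m κ (fun y k => LB.act (L.P y) (dbar0 κ s y k)) x := at1_act L hm (hs.dbar hmn)
  have hmn' : m ≤ n := le_trans (by simp) hmn
  have h2 : At1 m κ (fun y k => a y k • s y) x := ha.smul_right (hs.of_le hmn')
  exact h1.add h2

/-- `∂̄_L ∂̄_L = 0` -/
theorem db1_db0 (ha : L.IsHol a) {s : X → EuclideanSpace ℂ ι} {x : X} (hs : At0 2 κ s x)
    (hsec : ∀ᶠ y in 𝓝 x, LB.act (L.P y) (s y) = s y) : L.db1 a κ (L.db0 a κ s) x = 0 := by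
  have hs1 : At0 1 κ s x := hs.of_le (by norm_num)
  have hω : At1 1 κ (dbar0 κ s) x := hs.dbar (by norm_num)
  have ha1 : At1 1 0 a x := (ha.smooth.at x).of_le (by simp)
  have hsx : LB.act (L.P x) (s x) = s x := hsec.self_of_nhds
  -- the derivative of the equation `P s = s`
  have hPs : ∀ k, dbar0 κ s x k = LB.act (dP L x k) (s x) + LB.act (L.P x) (dbar0 κ s x k) := by
    intro k
    conv_lhs => rw [← dbar0_congr (κ := κ) hsec]
    exact dbar0_act L hs1 k
  have h1 : dbar1 κ (L.db0 a κ s) x =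
      ((LB.act (dP L x 0) (dbar0 κ s x 1) - LB.act (dP L x 1) (dbar0 κ s x 0)) +
        LB.act (L.P x) (dbar1 κ (dbar0 κ s) x)) +
      (dbar1 0 a x • s x - (a x 0 • dbar0 κ s x 1 - a x 1 • dbar0 κ s x 0)) := by
    rw [← dbar1_act L hω, ← dbar1_smul_right ha1 hs1]
    exact dbar1_add (at1_act L (by simp) hω) (ha1.smul_right hs1)
  have h2 : ∀ k l, LB.act (L.P x) (LB.act (dP L x k) (dbar0 κ s x l)) =
      LB.act (L.P x) (LB.act (dP L x k * dP L x l) (s x)) := by
    intro k l
    rw [hPs l, act_add, act_add, ← act_mul (L.P x) (dP L x k) (LB.act (L.P x) _),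
      ← act_mul (L.P x * dP L x k), P_dP_P, act_mul (dP L x k)]
    simp [LB.act]
  have h3 : LB.act (L.P x) (LB.act (dP L x 0 * dP L x 1 - dP L x 1 * dP L x 0) (s x)) =
      L.F02 x • s x := by
    rw [F02_eq]
    exact act_P_M (L.herm x) (L.idem x) (L.tr x) _ hsx
  rw [LB.db1, h1, dbar1_dbar0 hs, act_zero, add_zero]
  simp only [act_add, act_sub, act_smul, h2, hsx]
  rw [← act_sub, ← act_Msub, h3]
  have h4 : dbar1 0 a x = -L.F02 x := eq_neg_of_add_eq_zero_left (ha.integrable x)
  rw [h4]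
  simp only [LB.db0, smul_add, smul_smul]
  module

/-- Leibniz rule: a scalar function times a section -/
theorem db0_smul {f : X → ℂ} {s : X → EuclideanSpace ℂ ι} {x : X} (hf : At0 1 κ f x) (hs : At0 1 0 s x)
    (hsx : LB.act (L.P x) (s x) = s x) (k : Fin 2) :
    L.db0 a κ (fun y => f y • s y) x k = dbar0 κ f x k • s x + f x • L.db0 a 0 s x k := by
  have h := dbar0_smul' hf hs k
  rw [add_zero] at h
  rw [LB.db0, h, act_add, act_smul, act_smul, hsx, LB.db0]
  module

/-- Leibniz rule: a scalar one-form times a section -/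
theorem db1_smul_right {γ : X → Fin 2 → ℂ} {s : X → EuclideanSpace ℂ ι} {x : X} (hγ : At1 1 κ γ x)
    (hs : At0 1 0 s x) (hsx : LB.act (L.P x) (s x) = s x) :
    L.db1 a κ (fun y k => γ y k • s y) x =
      dbar1 κ γ x • s x - (γ x 0 • L.db0 a 0 s x 1 - γ x 1 • L.db0 a 0 s x 0) := by
  have h := dbar1_smul_right' hγ hs
  rw [add_zero] at h
  rw [LB.db1, h, act_sub, act_sub, act_smul, act_smul, act_smul, hsx, LB.db0, LB.db0]
  module

theorem db0_congr {s t : X → EuclideanSpace ℂ ι} {x : X} (h : s =ᶠ[𝓝 x] t) : L.db0 a κ s x = L.db0 a κ t x := by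
  funext k
  rw [LB.db0, LB.db0, dbar0_congr h, h.self_of_nhds]

theorem db1_congr {v w : X → Fin 2 → EuclideanSpace ℂ ι} {x : X} (h : v =ᶠ[𝓝 x] w) :
    L.db1 a κ v x = L.db1 a κ w x := by
  rw [LB.db1, LB.db1, dbar1_congr h, h.self_of_nhds]

end Vale.Agent.P267.H181
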