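import Vale.Agent.P267.H181.Loc
import Vale.Agent.P267.H181.LBx
import Vale.Agent.P267.H399.Calc3

/-!
# P267, package XA-FRAMES (helper181), part 4: holomorphic frames with bounds, local solvability

* `exists_frame`: holomorphic frame of `(L, a)` on a polydisc with explicit bounds.
* `hasFrames : L.IsHol a → HasFrames L a` (378's definition).
* `locSol`: `∂̄_L`-closed forms are locally `∂̄_L`-exact (degree one); `locSol2` (degree two).
-/

set_option linter.unusedSectionVars false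

open Filter Topology Set Metric
open scoped ContDiff Manifold ComplexConjugate Matrix

noncomputable section

namespace Vale.Agent.P267.H181

open FL H378

variable {X : Type*} [TopologicalSpace X] [ChartedSpace C2 X] [IsManifold 𝓘(ℂ, C2) ω X]
variable {ι : Type} [Fintype ι] [DecidableEq ι]



theorem two_le_infty : (2 : WithTop ℕ∞) ≤ ∞ := WithTop.coe_le_coe.2 le_top

/-- composition of a function with a smooth function -/
theorem at0_comp_fun {V W : Type*} [NormedAddCommGroup V] [NormedSpace ℂ V]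
    [NormedAddCommGroup W] [NormedSpace ℂ W] {n : WithTop ℕ∞} {s : X → V} {x : X} {F : V → W}
    (hs : At0 n 0 s x) (hF : ContDiffAt ℝ n F (s x)) : At0 n 0 (fun y => F (s y)) x := by
  rw [At0, LB.loc0_zero] at hs ⊢
  refine ContDiffAt.comp (g := F) _ ?_ hs
  rwa [(chartAt C2 x).left_inv (mem_chart_source C2 x)]

/-- coefficients of the linear functional dual to the frame `s` -/
def cf (s : X → EuclideanSpace ℂ ι) (y : X) (j : ι) : ℂ := conj (s y j) * ((‖s y‖ ^ 2 : ℝ) : ℂ)⁻¹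

/-- coefficient of a section with respect to the frame `s` -/
def coef0 (s t : X → EuclideanSpace ℂ ι) (y : X) : ℂ := ∑ j, cf s y j * t y j

/-- coefficient of a one-form with respect to the frame `s` -/
def coef1 (s : X → EuclideanSpace ℂ ι) (w : X → Fin 2 → EuclideanSpace ℂ ι) (y : X) (k : Fin 2) : ℂ := ∑ j, cf s y j * w y k j

theorem eq_cf {P : Matrix ι ι ℂ} (hh : Pᴴ = P) (hP : P * P = P) (ht : P.trace = 1)
    {s : X → EuclideanSpace ℂ ι} {x : X} (hs : LB.act P (s x) = s x) (h0 : s x ≠ 0) {t : EuclideanSpace ℂ ι}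
    (h : LB.act P t = t) : (∑ j, cf s x j * t j) • s x = t := by
  have h1 := rank_one hh hP ht hs h0 h
  conv_rhs => rw [h1]
  congr 1
  rw [PiLp.inner_apply, Finset.sum_div]
  refine Finset.sum_congr rfl fun j _ => ?_
  simp [cf, div_eq_mul_inv]
  ring

theorem at0_cf {n : WithTop ℕ∞} {s : X → EuclideanSpace ℂ ι} {x : X} (hs : At0 n 0 s x) (h0 : s x ≠ 0) (j : ι) :
    At0 n 0 (fun y => cf s y j) x := by
  refine at0_comp_fun (F := fun v : EuclideanSpace ℂ ι => conj (v j) * ((‖v‖ ^ 2 : ℝ) : ℂ)⁻¹) hs ?_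
  have h1 : ContDiff ℝ n (fun v : EuclideanSpace ℂ ι => conj (v j)) :=
    (Complex.conjCLE : ℂ →L[ℝ] ℂ).contDiff.comp ((prj j).restrictScalars ℝ).contDiff
  have h2 : ContDiff ℝ n (fun v : EuclideanSpace ℂ ι => ((‖v‖ ^ 2 : ℝ) : ℂ)) :=
    Complex.ofRealCLM.contDiff.comp (contDiff_norm_sq ℝ)
  refine h1.contDiffAt.mul (h2.contDiffAt.inv ?_)
  have : (‖s x‖ ^ 2 : ℝ) ≠ 0 := by positivity
  exact_mod_cast this

theorem at0_coef0 {n : WithTop ℕ∞} {κ : ℤ} {s t : X → EuclideanSpace ℂ ι} {x : X} (hs : At0 n 0 s x)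
    (h0 : s x ≠ 0) (ht : At0 n κ t x) : At0 n κ (coef0 s t) x :=
  At0.sum fun j _ => (at0_cf hs h0 j).mul (at0_comp ht j)

theorem at1_coef1 {n : WithTop ℕ∞} {κ : ℤ} {s : X → EuclideanSpace ℂ ι} {w : X → Fin 2 → EuclideanSpace ℂ ι} {x : X}
    (hs : At0 n 0 s x) (h0 : s x ≠ 0) (hw : At1 n κ w x) : At1 n κ (coef1 s w) x := by
  have h1 : At1 n κ (fun y => ∑ j, (fun k => cf s y j • w y k j)) x :=
    At1.sum fun j _ => At1.smul (at0_cf hs h0 j) (at1_comp hw j)
  refine h1.congr (Eventually.of_forall fun y => ?_)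
  funext k
  simp only [coef1, Finset.sum_apply, smul_eq_mul]

theorem at2_comp {n : WithTop ℕ∞} {κ : ℤ} {s : X → EuclideanSpace ℂ ι} {x : X} (h : At2 n κ s x) (i : ι) :
    At2 n κ (fun y => s y i) x := h.clm (prj i)

theorem at2_coef0 {n : WithTop ℕ∞} {κ : ℤ} {s t : X → EuclideanSpace ℂ ι} {x : X} (hs : At0 n 0 s x)
    (h0 : s x ≠ 0) (ht : At2 n κ t x) : At2 n κ (coef0 s t) x := by
  have h1 : At2 n κ (fun y => ∑ j, cf s y j • t y j) x :=
    At2.sum fun j _ => At2.smul (at0_cf hs h0 j) (at2_comp ht j)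
  refine h1.congr (Eventually.of_forall fun y => ?_)
  simp only [coef0, smul_eq_mul]

variable {L : LB X ι} {a : X → Fin 2 → ℂ} {κ : ℤ}

theorem act_db0 {s : X → EuclideanSpace ℂ ι} {x : X} (hsx : LB.act (L.P x) (s x) = s x) (k : Fin 2) :
    LB.act (L.P x) (L.db0 a κ s x k) = L.db0 a κ s x k := by
  rw [LB.db0, act_add, act_smul, hsx, ← act_mul, L.idem]

theorem act_db1 {w : X → Fin 2 → EuclideanSpace ℂ ι} {x : X} (h : ∀ k, LB.act (L.P x) (w x k) = w x k) :
    LB.act (L.P x) (L.db1 a κ w x) = L.db1 a κ w x := by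
  rw [LB.db1, act_add, act_sub, act_smul, act_smul, h, h, ← act_mul, L.idem]

/-- the form of a frame: `∂̄_L s = α s` -/
theorem db0_eq_coef {s : X → EuclideanSpace ℂ ι} {x : X} (hsx : LB.act (L.P x) (s x) = s x) (h0 : s x ≠ 0)
    (k : Fin 2) : L.db0 a 0 s x k = coef1 s (L.db0 a 0 s) x k • s x :=
  (eq_cf (L.herm x) (L.idem x) (L.tr x) hsx h0 (act_db0 hsx k)).symm

/-- the form of a frame is closed -/
theorem dbar1_coef (ha : L.IsHol a) {s : X → EuclideanSpace ℂ ι} {x : X} (hs : At0 2 0 s x)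
    (hsec : ∀ᶠ y in 𝓝 x, LB.act (L.P y) (s y) = s y) (h0 : ∀ᶠ y in 𝓝 x, s y ≠ 0) :
    dbar1 0 (coef1 s (L.db0 a 0 s)) x = 0 := by
  have hsx := hsec.self_of_nhds
  have h0x := h0.self_of_nhds
  have hs1 : At0 1 0 s x := hs.of_le (by norm_num)
  have ha1 : At1 1 0 a x := (ha.smooth.at x).of_le (by simp)
  have hα : At1 1 0 (coef1 s (L.db0 a 0 s)) x :=
    at1_coef1 hs1 h0x (at1_db0 ha1 (by simp) hs (by norm_num))
  have h1 := db1_db0 ha hs hsec
  have h2 : L.db0 a 0 s =ᶠ[𝓝 x] fun y k => coef1 s (L.db0 a 0 s) y k • s y := by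
    filter_upwards [hsec, h0] with y hy hy0
    funext k
    exact db0_eq_coef hy hy0 k
  rw [db1_congr h2, db1_smul_right hα hs1 hsx, db0_eq_coef hsx h0x 0, db0_eq_coef hsx h0x 1,
    smul_smul, smul_smul, mul_comm (coef1 s (L.db0 a 0 s) x 1), sub_self, sub_zero] at h1
  exact (smul_eq_zero.1 h1).resolve_right h0x

/-- the smooth frame `P v` -/
def sv (L : LB X ι) (v : EuclideanSpace ℂ ι) (y : X) : EuclideanSpace ℂ ι := LB.act (L.P y) v

theorem sv_sec (L : LB X ι) (v : EuclideanSpace ℂ ι) : L.Sec (sv L v) := by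
  intro x
  rw [sv, ← act_mul, L.idem]

theorem at0_sv (L : LB X ι) (v : EuclideanSpace ℂ ι) {n : WithTop ℕ∞} (hn : n ≤ ∞) (x : X) :
    At0 n 0 (sv L v) x := at0_act L hn at0_const

/-- the closed `(0,1)`-form of the frame `P v` -/
def fv (L : LB X ι) (a : X → Fin 2 → ℂ) (v : EuclideanSpace ℂ ι) : X → Fin 2 → ℂ := coef1 (sv L v) (L.db0 a 0 (sv L v))

theorem db0_sv (L : LB X ι) (a : X → Fin 2 → ℂ) {v : EuclideanSpace ℂ ι} {x : X} (h0 : sv L v x ≠ 0) (k : Fin 2) :
    L.db0 a 0 (sv L v) x k = fv L a v x k • sv L v x := db0_eq_coef (sv_sec L v x) h0 k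

theorem at1_fv (ha : L.IsHol a) {v : EuclideanSpace ℂ ι} {x : X} (h0 : sv L v x ≠ 0) : At1 ∞ 0 (fv L a v) x :=
  at1_coef1 (at0_sv L v le_rfl x) h0
    (at1_db0 (ha.smooth.at x) le_rfl (at0_sv L v le_rfl x) (by simp))

theorem dbar1_fv (ha : L.IsHol a) {v : EuclideanSpace ℂ ι} {x : X} (h0 : ∀ᶠ y in 𝓝 x, sv L v y ≠ 0) :
    dbar1 0 (fv L a v) x = 0 :=
  dbar1_coef ha (at0_sv L v two_le_infty x) (Eventually.of_forall (sv_sec L v)) h0

/-- a potential of a closed form on a polydisc in a chart -/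
theorem exists_potential {r R : ℝ} (hr : 0 < r) (hrR : r < R) :
    ∃ C, 0 ≤ C ∧ ∀ {X : Type _} [TopologicalSpace X] [ChartedSpace C2 X]
      [IsManifold 𝓘(ℂ, C2) ω X] {κ : ℤ} {e : Ch X} {c : C2} {α : X → Fin 2 → ℂ} {A : ℝ},
      e ∈ atlas C2 X → ball c R ⊆ e.target → 0 ≤ A →
      (∀ z ∈ ball c R, At1 ∞ κ α (e.symm z)) → (∀ z ∈ ball c R, dbar1 κ α (e.symm z) = 0) →
      (∀ z ∈ ball c R, ∀ i, ‖loc1 κ e α z i‖ ≤ A) →
      ∃ φ : C2 → ℂ, ContDiff ℝ ∞ φ ∧ (∀ z ∈ ball c r, ∀ i, dzb i φ z = loc1 κ e α z i) ∧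
        ∀ z ∈ ball c r, ‖φ z‖ ≤ C * A := by
  obtain ⟨C, hC0, hC⟩ := exists_dbar_one hr hrR
  refine ⟨C, hC0, ?_⟩
  intro X _ _ _ κ e c α A he hb hA hα hcl hbd
  have hc1 : ∀ z ∈ ball c R, ContDiffAt ℝ ∞ (loc1 κ e α) z := by
    intro z hz
    have := (hα z hz).chart he (e.map_target (hb hz))
    rwa [e.right_inv (hb hz)] at this
  refine hC c (loc1 κ e α) A hA (fun i z hz => ?_) (fun z hz => ?_) hbd
  · exact ((contDiffAt_pi.1 (hc1 z hz)) i).contDiffWithinAt
  · have h1 := loc2_dbar1 he (hb hz) ((hc1 z hz).differentiableAt (by simp))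
    have h2 : loc2 κ e (dbar1 κ α) z = 0 := by
      rw [loc2, hcl z hz, smul_zero, smul_zero]
    rw [h2] at h1
    exact sub_eq_zero.1 h1.symm

/-- cut-off times exponential, the coefficient of the holomorphic frame -/
def ecut (χ : ContDiffBump (0 : ℂ)) (c : C2) (φ : C2 → ℂ) (z : C2) : ℂ :=
  cut χ (z - c) * Complex.exp (-φ z)

theorem ecut_contDiff (χ : ContDiffBump (0 : ℂ)) (c : C2) {φ : C2 → ℂ} (hφ : ContDiff ℝ ∞ φ) :
    ContDiff ℝ ∞ (ecut χ c φ) := by
  have h1 : ContDiff ℝ ∞ fun z : C2 => cut χ (z - c) :=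
    (cut_contDiff χ).comp (by fun_prop : ContDiff ℝ ∞ fun z : C2 => z - c)
  have h2 : ContDiff ℝ ∞ fun z : C2 => Complex.exp (-φ z) :=
    Complex.contDiff_exp.comp hφ.neg
  exact h1.mul h2

theorem cut_sub_eq_zero {χ : ContDiffBump (0 : ℂ)} {c z : C2} (hz : z ∉ closedBall c χ.rOut) :
    cut χ (z - c) = 0 := by
  have : ∃ j, χ.rOut < ‖(z - c) j‖ := by
    by_contra hcon
    push Not at hcon
    refine hz ?_
    rw [mem_closedBall, dist_eq_norm]
    exact (pi_norm_le_iff_of_nonneg χ.rOut_pos.le).2 hcon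
  obtain ⟨j, hj⟩ := this
  exact cut_eq_zero j hj.le

theorem cut_sub_eq_one {χ : ContDiffBump (0 : ℂ)} {c z : C2} (hz : z ∈ closedBall c χ.rIn) :
    cut χ (z - c) = 1 := cut_eq_one (by rwa [mem_closedBall, dist_eq_norm] at hz)

theorem ecut_eq {χ : ContDiffBump (0 : ℂ)} {c : C2} {φ : C2 → ℂ} {z : C2}
    (hz : z ∈ closedBall c χ.rIn) : ecut χ c φ z = Complex.exp (-φ z) := by
  rw [ecut, cut_sub_eq_one hz, one_mul]

/-- the frame `χ exp(-φ) s`, given a potential `φ` of the form of the frame `s` -/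
theorem exists_frame_of_potential [T2Space X] {e : Ch X} (he : e ∈ atlas C2 X) {c : C2}
    {χ : ContDiffBump (0 : ℂ)} (hb : closedBall c χ.rOut ⊆ e.target) {s : X → EuclideanSpace ℂ ι}
    (hs : Reg0 ∞ 0 s) (hsec : L.Sec s) {α : X → Fin 2 → ℂ} {φ : C2 → ℂ} (hφ : ContDiff ℝ ∞ φ)
    (hα : ∀ z ∈ ball c χ.rIn, ∀ k, L.db0 a 0 s (e.symm z) k = α (e.symm z) k • s (e.symm z))
    (hpot : ∀ z ∈ ball c χ.rIn, ∀ i, dzb i φ z = loc1 0 e α z i) :
    ∃ t : X → EuclideanSpace ℂ ι, Reg0 ∞ 0 t ∧ L.Sec t ∧ HasCompactSupport t ∧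
      tsupport t ⊆ e.symm '' closedBall c χ.rOut ∧
      (∀ z ∈ ball c χ.rIn, t (e.symm z) = Complex.exp (-φ z) • s (e.symm z)) ∧
      ∀ z ∈ ball c χ.rIn, L.db0 a 0 t (e.symm z) = 0 := by
  set g : X → ℂ := ext0 0 e (ecut χ c φ) with hg
  have hK : IsCompact (closedBall c χ.rOut) := isCompact_closedBall _ _
  have hz0 : ∀ z ∉ closedBall c χ.rOut, ecut χ c φ z = 0 := fun z hz => by
    rw [ecut, cut_sub_eq_zero hz, zero_mul]
  have hgc : Reg0 ∞ 0 g := reg0_ext0 he hK hb hz0 fun z _ => (ecut_contDiff χ c hφ).contDiffAt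
  have hin : ball c χ.rIn ⊆ closedBall c χ.rOut :=
    ball_subset_closedBall.trans (closedBall_subset_closedBall χ.rIn_lt_rOut.le)
  have htg : ∀ z ∈ ball c χ.rIn, z ∈ e.target := fun z hz => hb (hin hz)
  refine ⟨fun y => g y • s y, ?_, ?_, ?_, ?_, ?_, ?_⟩
  · exact reg0_iff_at.2 fun x => (hgc.at x).smul (hs.at x)
  · intro x
    rw [act_smul, hsec x]
  · exact (hasCompactSupport_ext0 hK hb hz0).smul_right
  · exact (closure_mono (Function.support_smul_subset_left g s)).trans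
      (tsupport_ext0_subset hK hb hz0)
  · intro z hz
    simp only [hg]
    rw [ext0_source_zero (e.map_target (htg z hz)), e.right_inv (htg z hz),
      ecut_eq (ball_subset_closedBall hz)]
  · intro z hz
    have hzt := htg z hz
    have hzs := e.map_target hzt
    -- the derivative of `g`
    have hev : loc0 0 e g =ᶠ[𝓝 z] fun w => Complex.exp (-φ w) := by
      filter_upwards [e.open_target.mem_nhds hzt, isOpen_ball.mem_nhds hz] with w hw hw2
      rw [hg, loc0_ext0 he hw, ecut_eq (ball_subset_closedBall hw2)]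
    have hexp : DifferentiableAt ℝ (fun w => Complex.exp (-φ w)) z :=
      ((Complex.contDiff_exp (𝕜 := ℝ) (n := 1)).comp (hφ.neg.of_le (by simp))).differentiable
        (by simp) z
    have hd : DifferentiableAt ℝ (loc0 0 e g) z := hexp.congr_of_eventuallyEq hev
    have hder : ∀ i, dzb i (loc0 0 e g) z = -Complex.exp (-φ z) * dzb i φ z := by
      intro i
      rw [dzb_congr hev]
      have h1 : HasFDerivAt (fun w => Complex.exp (-φ w))
          (Complex.exp (-φ z) • (-(fderiv ℝ φ z))) z := by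
        have h2 : HasFDerivAt φ (fderiv ℝ φ z) z := (hφ.differentiable (by simp) z).hasFDerivAt
        exact h2.neg.cexp
      unfold FL.dzb
      rw [h1.fderiv]
      simp only [smul_apply, neg_apply, smul_eq_mul]
      ring
    have hgd : dbar0 0 g (e.symm z) = fun k => -Complex.exp (-φ z) * α (e.symm z) k := by
      refine dbar0_of_chart (a := fun y k => -Complex.exp (-φ z) * α y k) he hzs
        (by rwa [e.right_inv hzt]) fun i => ?_
      rw [e.right_inv hzt, hder, hpot z hz]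
      simp only [loc1, zpow_zero, smul_eq_mul, Finset.mul_sum]
      refine Finset.sum_congr rfl fun p _ => ?_
      ring
    funext k
    rw [db0_smul ((hgc.at _).of_le (by simp)) ((hs.at _).of_le (by simp)) (hsec _), hgd, hα z hz]
    have : g (e.symm z) = Complex.exp (-φ z) := by
      rw [hg, ext0_source_zero hzs, e.right_inv hzt, ecut_eq (ball_subset_closedBall hz)]
    rw [this, smul_smul, ← add_smul]
    simp

/-- some `P v` is nonzero at a given point -/
theorem exists_sv_ne_zero (L : LB X ι) (x : X) : ∃ v : EuclideanSpace ℂ ι, sv L v x ≠ 0 := by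
  by_contra hcon
  push Not at hcon
  have h1 : L.P x = 0 := by
    ext i j
    have h2 := hcon (EuclideanSpace.single j 1)
    have h3 : (LB.act (L.P x) (EuclideanSpace.single j (1 : ℂ))) i = L.P x i j := by
      simp [act_apply]
    rw [← h3]
    change (sv L _ x) i = _
    rw [h2]
    rfl
  have h4 := L.tr x
  rw [h1] at h4
  simp at h4

/-- a radius on which finitely many continuous conditions hold -/
theorem exists_ball {e : Ch X} {x : X} (hx : x ∈ e.source) {p : C2 → Prop}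
    (hp : ∀ᶠ z in 𝓝 (e x), p z) : ∃ R > 0, ball (e x) R ⊆ e.target ∧ ∀ z ∈ ball (e x) R, p z := by
  have h := hp.and (e.open_target.mem_nhds (e.map_source hx))
  obtain ⟨R, hR, hb⟩ := Metric.eventually_nhds_iff_ball.1 h
  exact ⟨R, hR, fun z hz => (hb z hz).2, fun z hz => (hb z hz).1⟩

theorem eventually_of_chart {e : Ch X} {x : X} (hx : x ∈ e.source) {p : X → Prop} {r : ℝ}
    (hr : 0 < r) (h : ∀ z ∈ ball (e x) r, p (e.symm z)) : ∀ᶠ y in 𝓝 x, p y := by
  filter_upwards [e.open_source.mem_nhds hx,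
    (e.continuousAt hx).eventually (isOpen_ball.mem_nhds (mem_ball_self hr))] with y hy hy2
  have := h (e y) hy2
  rwa [e.left_inv hy] at this

/-- local potentials of closed scalar forms, in a prescribed chart -/
theorem exists_local_potential {e : Ch X} (he : e ∈ atlas C2 X) {x : X} (hx : x ∈ e.source)
    {α : X → Fin 2 → ℂ} (hα : ∀ᶠ y in 𝓝 x, At1 ∞ κ α y ∧ dbar1 κ α y = 0) :
    ∃ R > 0, ball (e x) R ⊆ e.target ∧ ∃ φ : C2 → ℂ, ContDiff ℝ ∞ φ ∧
      ∀ z ∈ ball (e x) R, ∀ i, dzb i φ z = loc1 κ e α z i := by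
  have hc : ContinuousAt (loc1 κ e α) (e x) := (hα.self_of_nhds.1.chart he hx).continuousAt
  have h1 : ∀ᶠ z in 𝓝 (e x), ‖loc1 κ e α z‖ < ‖loc1 κ e α (e x)‖ + 1 :=
    hc.norm.eventually (Iio_mem_nhds (by linarith))
  have h2 : ∀ᶠ z in 𝓝 (e x), At1 ∞ κ α (e.symm z) ∧ dbar1 κ α (e.symm z) = 0 :=
    (tendsto_symm_nhds hx).eventually hα
  obtain ⟨R, hR, hRt, hRp⟩ := exists_ball hx (h1.and h2)
  obtain ⟨C, hC0, hC⟩ := exists_potential (r := R / 2) (R := R) (by linarith) (by linarith)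
  obtain ⟨φ, hφ, hφ2, -⟩ := hC (κ := κ) (e := e) (c := e x) (α := α)
    (A := ‖loc1 κ e α (e x)‖ + 1) he hRt (by positivity) (fun z hz => (hRp z hz).2.1)
    (fun z hz => (hRp z hz).2.2) (fun z hz i => (norm_le_pi_norm _ i).trans (hRp z hz).1.le)
  exact ⟨R / 2, by linarith, (ball_subset_ball (by linarith)).trans hRt, φ, hφ, hφ2⟩

/-- **Local holomorphic frames.** -/
theorem hasFrames [T2Space X] (ha : L.IsHol a) : HasFrames L a := by
  intro x
  obtain ⟨v, hv⟩ := exists_sv_ne_zero L x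
  set e := chartAt C2 x with hed
  have he : e ∈ atlas C2 X := chart_mem_atlas C2 x
  have hx : x ∈ e.source := mem_chart_source C2 x
  -- the smooth frame is nonzero near `x`
  have hcont : ContinuousAt (sv L v) x := by
    have h1 : Continuous (sv L v) := by
      have : ContMDiff 𝓘(ℝ, C2) 𝓘(ℝ, EuclideanSpace ℂ ι) 0 (sv L v) := by
        rw [contMDiff_iff_reg0]
        exact reg0_iff_at.2 fun y => at0_sv L v (by simp) y
      exact this.continuous
    exact h1.continuousAt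
  have hne : ∀ᶠ y in 𝓝 x, sv L v y ≠ 0 := hcont.eventually_ne hv
  have hα : ∀ᶠ y in 𝓝 x, At1 ∞ 0 (fv L a v) y ∧ dbar1 0 (fv L a v) y = 0 := by
    filter_upwards [hne.eventually_nhds] with y hy
    exact ⟨at1_fv ha hy.self_of_nhds, dbar1_fv ha hy⟩
  obtain ⟨R, hR, hRt, φ, hφ, hpot⟩ := exists_local_potential he hx hα
  obtain ⟨R', hR', -, hRne⟩ := exists_ball (e := e) hx
    ((tendsto_symm_nhds hx).eventually hne)
  set ρ := min R R' with hρ
  have hρ0 : 0 < ρ := lt_min hR hR'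
  have h2 : 0 < ρ / 3 := by linarith
  have h3 : ρ / 3 < ρ / 2 := by linarith
  let χ := bmp h2 h3
  have hin : χ.rIn = ρ / 3 := rfl
  have hout : χ.rOut = ρ / 2 := rfl
  have hsub : ball (e x) χ.rIn ⊆ ball (e x) R :=
    ball_subset_ball (by rw [hin]; linarith [min_le_left R R'])
  have hsub' : ball (e x) χ.rIn ⊆ ball (e x) R' :=
    ball_subset_ball (by rw [hin]; linarith [min_le_right R R'])
  have hb : closedBall (e x) χ.rOut ⊆ e.target :=
    (closedBall_subset_ball (by rw [hout]; linarith [min_le_left R R'])).trans hRt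
  obtain ⟨t, ht, htsec, -, -, hteq, htd⟩ := exists_frame_of_potential (L := L) (a := a) he
    (c := e x) (χ := χ) hb (s := sv L v) (reg0_iff_at.2 fun y => at0_sv L v le_rfl y)
    (sv_sec L v) (α := fv L a v) hφ (fun z hz k => db0_sv L a (hRne z (hsub' hz)) k)
    (fun z hz i => hpot z (hsub hz) i)
  refine ⟨t, ht, htsec, eventually_of_chart hx χ.rIn_pos fun z hz => ⟨?_, htd z hz⟩⟩
  rw [hteq z hz]
  exact smul_ne_zero (Complex.exp_ne_zero _) (hRne z (hsub' hz))

/-- **Local solvability in degree one.** -/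
theorem locSol [T2Space X] (ha : L.IsHol a) {g : X → Fin 2 → EuclideanSpace ℂ ι} (hg : Reg1 ∞ κ g)
    (hsec : L.Sec1 g) (hcl : ∀ x, L.db1 a κ g x = 0) : LocSol L a κ g := by
  intro x
  obtain ⟨t, ht, htsec, htev⟩ := hasFrames ha x
  set e := chartAt C2 x with hed
  have he : e ∈ atlas C2 X := chart_mem_atlas C2 x
  have hx : x ∈ e.source := mem_chart_source C2 x
  set γ : X → Fin 2 → ℂ := coef1 t g with hγ
  have hgt : ∀ y, t y ≠ 0 → g y = fun k => γ y k • t y := fun y hy => by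
    funext k
    exact (eq_cf (L.herm y) (L.idem y) (L.tr y) (htsec y) hy (hsec y k)).symm
  have hα : ∀ᶠ y in 𝓝 x, At1 ∞ κ γ y ∧ dbar1 κ γ y = 0 := by
    filter_upwards [htev.eventually_nhds] with y hy
    have h0 := hy.self_of_nhds.1
    have h1 : At1 ∞ κ γ y := at1_coef1 (ht.at y) h0 (hg.at y)
    refine ⟨h1, ?_⟩
    have h2 : g =ᶠ[𝓝 y] fun z k => γ z k • t z := hy.mono fun z hz => hgt z hz.1
    have h3 := hcl y
    rw [db1_congr h2, db1_smul_right (h1.of_le (by simp)) ((ht.at y).of_le (by simp)) (htsec y),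
      hy.self_of_nhds.2] at h3
    simp only [Pi.zero_apply, smul_zero, sub_zero] at h3
    exact (smul_eq_zero.1 h3).resolve_right h0
  obtain ⟨R, hR, hRt, φ, hφ, hpot⟩ := exists_local_potential he hx hα
  have h2 : 0 < R / 3 := by linarith
  have h3 : R / 3 < R / 2 := by linarith
  let χ := bmp h2 h3
  have hin : χ.rIn = R / 3 := rfl
  have hout : χ.rOut = R / 2 := rfl
  have hb : closedBall (e x) χ.rOut ⊆ e.target :=
    (closedBall_subset_ball (by rw [hout]; linarith)).trans hRt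
  set q : C2 → ℂ := fun z => cut χ (z - e x) * φ z with hq
  have hqc : ContDiff ℝ ∞ q :=
    ((cut_contDiff χ).comp (by fun_prop : ContDiff ℝ ∞ fun z : C2 => z - e x)).mul hφ
  have hq0 : ∀ z ∉ closedBall (e x) χ.rOut, q z = 0 := fun z hz => by
    simp only [hq]
    rw [cut_sub_eq_zero hz, zero_mul]
  have hf : Reg0 ∞ κ (ext0 κ e q) :=
    reg0_ext0 he (isCompact_closedBall _ _) hb hq0 fun z _ => hqc.contDiffAt
  refine ⟨fun y => ext0 κ e q y • t y, ?_, ?_, ?_⟩
  · refine reg0_iff_at.2 fun y => ?_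
    have := At0.smul' (hf.at y) (ht.at y)
    rwa [add_zero] at this
  · intro y
    rw [act_smul, htsec y]
  · filter_upwards [htev, eventually_of_chart hx χ.rIn_pos
      (p := fun y => y ∈ e.source ∧ e y ∈ ball (e x) χ.rIn) fun z hz => by
        have hzt : z ∈ e.target := hb ((ball_subset_closedBall.trans
          (closedBall_subset_closedBall χ.rIn_lt_rOut.le)) hz)
        exact ⟨e.map_target hzt, by rwa [e.right_inv hzt]⟩] with y hy hy2
    obtain ⟨hys, hyb⟩ := hy2
    have hev : loc0 κ e (ext0 κ e q) =ᶠ[𝓝 (e y)] φ := by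
      filter_upwards [e.open_target.mem_nhds (e.map_source hys), isOpen_ball.mem_nhds hyb]
        with z hz hz2
      rw [loc0_ext0 he hz]
      simp only [hq]
      rw [cut_sub_eq_one (ball_subset_closedBall hz2), one_mul]
    have hd : dbar0 κ (ext0 κ e q) y = γ y := by
      refine dbar0_of_chart he hys ?_ fun i => ?_
      · exact (hφ.differentiable (by simp) _).congr_of_eventuallyEq hev
      · rw [dzb_congr hev]
        refine hpot _ ?_ i
        exact ball_subset_ball (by rw [hin]; linarith) hyb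
    rw [hgt y hy.1]
    funext k
    rw [db0_smul ((hf.at y).of_le (by simp)) ((ht.at y).of_le (by simp)) (htsec y), hd, hy.2]
    simp

/-- **Local solvability in degree two.** -/
theorem locSol2 [T2Space X] (ha : L.IsHol a) {b : X → EuclideanSpace ℂ ι} (hb : Reg2 ∞ κ b) (hsec : L.Sec b)
    (x : X) : ∃ w : X → Fin 2 → EuclideanSpace ℂ ι, Reg1 ∞ κ w ∧ L.Sec1 w ∧ ∀ᶠ y in 𝓝 x, L.db1 a κ w y = b y := by
  obtain ⟨t, ht, htsec, htev⟩ := hasFrames ha x
  set e := chartAt C2 x with hed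
  have he : e ∈ atlas C2 X := chart_mem_atlas C2 x
  have hx : x ∈ e.source := mem_chart_source C2 x
  set β : X → ℂ := coef0 t b with hβ
  have hbt : ∀ y, t y ≠ 0 → b y = β y • t y := fun y hy =>
    (eq_cf (L.herm y) (L.idem y) (L.tr y) (htsec y) hy (hsec y)).symm
  have hβ2 : ∀ᶠ y in 𝓝 x, At2 ∞ κ β y := by
    filter_upwards [htev] with y hy
    exact at2_coef0 (ht.at y) hy.1 (hb.at y)
  have hc : ContinuousAt (loc2 κ e β) (e x) := (hβ2.self_of_nhds.chart he hx).continuousAt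
  have h1 : ∀ᶠ z in 𝓝 (e x), ‖loc2 κ e β z‖ < ‖loc2 κ e β (e x)‖ + 1 :=
    hc.norm.eventually (Iio_mem_nhds (by linarith))
  obtain ⟨R, hR, hRt, hRp⟩ := exists_ball hx (h1.and ((tendsto_symm_nhds hx).eventually hβ2))
  obtain ⟨C, hC0, hC⟩ := exists_dbar_two (r := R / 2) (R := R) (by linarith) (by linarith)
  obtain ⟨α, hαc, hαd, -⟩ := hC (e x) (loc2 κ e β) (‖loc2 κ e β (e x)‖ + 1) (by positivity)
    (fun z hz => by
      have := (hRp z hz).2.chart he (e.map_target (hRt hz))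
      rw [e.right_inv (hRt hz)] at this
      exact this.contDiffWithinAt) (fun z hz => (hRp z hz).1.le)
  have h2 : 0 < R / 4 := by linarith
  have h3 : R / 4 < R / 3 := by linarith
  let χ := bmp h2 h3
  have hin : χ.rIn = R / 4 := rfl
  have hout : χ.rOut = R / 3 := rfl
  have hb' : closedBall (e x) χ.rOut ⊆ e.target :=
    (closedBall_subset_ball (by rw [hout]; linarith)).trans hRt
  have hαc' : ContDiff ℝ ∞ α := contDiff_pi.2 hαc
  set q : C2 → Fin 2 → ℂ := fun z => cut χ (z - e x) • α z with hq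
  have hqc : ContDiff ℝ ∞ q :=
    ((cut_contDiff χ).comp (by fun_prop : ContDiff ℝ ∞ fun z : C2 => z - e x)).smul hαc'
  have hq0 : ∀ z ∉ closedBall (e x) χ.rOut, q z = 0 := fun z hz => by
    simp only [hq]
    rw [cut_sub_eq_zero hz, zero_smul]
  have hf : Reg1 ∞ κ (ext1 κ e q) :=
    reg1_ext1 he (isCompact_closedBall _ _) hb' hq0 fun z _ => hqc.contDiffAt
  refine ⟨fun y k => ext1 κ e q y k • t y, ?_, ?_, ?_⟩
  · refine reg1_iff_at.2 fun y => ?_
    have := At1.smul_right' (hf.at y) (ht.at y)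
    rwa [add_zero] at this
  · intro y k
    rw [act_smul, htsec y]
  · filter_upwards [htev, eventually_of_chart hx χ.rIn_pos
      (p := fun y => y ∈ e.source ∧ e y ∈ ball (e x) χ.rIn) fun z hz => by
        have hzt : z ∈ e.target := hb' ((ball_subset_closedBall.trans
          (closedBall_subset_closedBall χ.rIn_lt_rOut.le)) hz)
        exact ⟨e.map_target hzt, by rwa [e.right_inv hzt]⟩] with y hy hy2
    obtain ⟨hys, hyb⟩ := hy2
    have hyt := e.map_source hys
    have hev : loc1 κ e (ext1 κ e q) =ᶠ[𝓝 (e y)] α := by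
      filter_upwards [e.open_target.mem_nhds hyt, isOpen_ball.mem_nhds hyb] with z hz hz2
      rw [loc1_ext1 he hz]
      simp only [hq]
      rw [cut_sub_eq_one (ball_subset_closedBall hz2), one_smul]
    have hd : dbar1 κ (ext1 κ e q) y = β y := by
      refine loc2_inj (κ := κ) he hys ?_
      rw [loc2_dbar1 he hyt ((hαc'.differentiable (by simp) _).congr_of_eventuallyEq hev),
        dzb_congr (hev.mono fun z hz => congrFun hz 1) 0,
        dzb_congr (hev.mono fun z hz => congrFun hz 0) 1]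
      exact hαd _ (ball_subset_ball (by rw [hin]; linarith) hyb)
    rw [db1_smul_right ((hf.at y).of_le (by simp)) ((ht.at y).of_le (by simp)) (htsec y), hd, hy.2,
      ← hbt y hy.1]
    simp

end Vale.Agent.P267.H181
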