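import Vale.Agent.P267.H181.UFrm2
import Vale.Agent.P267.H869.PatchLem

/-!
# P267, package XA-FRAMES (helper181), part 8: the patch charts and the patches of helper869

`pch 𝒰 i k`: the chart `𝒰.e i`, restricted to `B i (1/2)`, scaled to `ball 0 3` and composed with
`sh (-k)`; it belongs to the maximal atlas. `DFrame.patch`: the patch given by a frame.
-/

set_option linter.unusedSectionVars false

open Filter Topology Set Metric
open scoped ContDiff Manifold ComplexConjugate Matrix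

noncomputable section

namespace Vale.Agent.P267.H181

open FL XT

/-! ### the affine chart -/

section aff

theorem norm_smul_sub_lt {c z : C2} {R ρ s : ℝ} (hρ : 0 < ρ) :
    ‖((ρ : ℝ) : ℂ) • (z - c)‖ < s ↔ dist z c < s / ρ := by
  rw [norm_smul, Complex.norm_real, Real.norm_of_nonneg hρ.le, dist_eq_norm, lt_div_iff₀ hρ,
    mul_comm]

/-- the affine chart `ball c (R/2) → ball 0 3` -/
def affB (c : C2) (R : ℝ) (hR : 0 < R) : OpenPartialHomeomorph C2 C2 where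
  toFun z := ((6 / R : ℝ) : ℂ) • (z - c)
  invFun w := c + ((R / 6 : ℝ) : ℂ) • w
  source := ball c (1 / 2 * R)
  target := ball 0 3
  map_source' z hz := by
    have h : (0 : ℝ) < 6 / R := by positivity
    rw [mem_ball_zero_iff, norm_smul_sub_lt (R := R) h]
    convert mem_ball.1 hz using 1
    field_simp
    norm_num
  map_target' w hw := by
    rw [mem_ball_zero_iff] at hw
    rw [mem_ball, dist_eq_norm, add_sub_cancel_left, norm_smul, Complex.norm_real,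
      Real.norm_of_nonneg (by positivity)]
    nlinarith
  left_inv' z _ := by
    have h : ((R / 6 : ℝ) : ℂ) * ((6 / R : ℝ) : ℂ) = 1 := by
      rw [← Complex.ofReal_mul, ← Complex.ofReal_one]
      congr 1
      field_simp
    rw [smul_smul, h, one_smul, add_sub_cancel]
  right_inv' w _ := by
    have h : ((6 / R : ℝ) : ℂ) * ((R / 6 : ℝ) : ℂ) = 1 := by
      rw [← Complex.ofReal_mul, ← Complex.ofReal_one]
      congr 1
      field_simp
    rw [add_sub_cancel_left, smul_smul, h, one_smul]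
  open_source := isOpen_ball
  open_target := isOpen_ball
  continuousOn_toFun := by fun_prop
  continuousOn_invFun := by fun_prop

end aff

/-! ### chart preserving maps are holomorphic -/

section chm

variable {Y X : Type*} [TopologicalSpace Y] [ChartedSpace C2 Y] [TopologicalSpace X]
  [ChartedSpace C2 X] [IsManifold 𝓘(ℂ, C2) ω X] [IsManifold 𝓘(ℂ, C2) ω Y]

theorem contMDiff_of_chartMap {g : Y → X} (hg : ChartMap g) :
    ContMDiff 𝓘(ℂ, C2) 𝓘(ℂ, C2) ω g := by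
  intro y
  have h1 : g =ᶠ[𝓝 y] fun z => (chartAt C2 (g y)).symm (chartAt C2 y z) := by
    filter_upwards [hg.germ y, hg.cont.continuousAt.preimage_mem_nhds
      ((chartAt C2 (g y)).open_source.mem_nhds (mem_chart_source C2 (g y)))] with z hz hz2
    rw [← hz, (chartAt C2 (g y)).left_inv hz2]
  have h2 : ContMDiffAt 𝓘(ℂ, C2) 𝓘(ℂ, C2) ω (chartAt C2 y) y :=
    contMDiffAt_of_mem_maximalAtlas (IsManifold.chart_mem_maximalAtlas y) (mem_chart_source C2 y)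
  have h3 : ContMDiffAt 𝓘(ℂ, C2) 𝓘(ℂ, C2) ω (chartAt C2 (g y)).symm (chartAt C2 y y) :=
    contMDiffAt_symm_of_mem_maximalAtlas (IsManifold.chart_mem_maximalAtlas (g y)) (by
      rw [← hg.apply_eq]
      exact mem_chart_target C2 (g y))
  exact (h3.comp y h2).congr_of_eventuallyEq h1

end chm

variable {M : Type} [TopologicalSpace M] [ChartedSpace C2 M]
variable {ι : Type} [Fintype ι] [DecidableEq ι]
variable {D : XTData M} (𝒰 : PCov D)

/-- the patch charts -/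
def pch (i : Fin 𝒰.N) (k : ℤ) : Ch M :=
  ((D.γ ^ (-k)).toOpenPartialHomeomorph).trans
    ((𝒰.e i).trans (affB (𝒰.c i) (𝒰.R i) (𝒰.R_pos i)))

section

variable {𝒰} {i : Fin 𝒰.N} {k : ℤ}

theorem pch_apply (x : M) :
    pch 𝒰 i k x = ((6 / 𝒰.R i : ℝ) : ℂ) • (𝒰.e i (D.sh (-k) x) - 𝒰.c i) := rfl

theorem inv_sh (x : M) : (D.γ ^ (-k)).symm x = D.sh k x := by
  apply (D.γ ^ (-k)).injective
  rw [Homeomorph.apply_symm_apply]
  exact (D.sh_neg_sh k x).symm

theorem pch_symm_apply (w : C2) :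
    (pch 𝒰 i k).symm w = D.sh k ((𝒰.e i).symm (𝒰.c i + ((𝒰.R i / 6 : ℝ) : ℂ) • w)) := by
  have h : (pch 𝒰 i k).symm w =
      (D.γ ^ (-k)).symm ((𝒰.e i).symm (𝒰.c i + ((𝒰.R i / 6 : ℝ) : ℂ) • w)) := rfl
  rw [h, inv_sh]

theorem mem_pch_source {x : M} : x ∈ (pch 𝒰 i k).source ↔ D.sh (-k) x ∈ 𝒰.B i (1 / 2) := by
  rw [𝒰.mem_B (by norm_num : (1 / 2 : ℝ) ≤ 1)]
  simp only [pch, OpenPartialHomeomorph.trans_source, mem_inter_iff, mem_preimage,
    Homeomorph.toOpenPartialHomeomorph_source, mem_univ, true_and]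
  rfl

theorem pch_target : (pch 𝒰 i k).target = ball 0 3 := by
  ext w
  simp only [pch, OpenPartialHomeomorph.trans_target, mem_inter_iff, mem_preimage,
    Homeomorph.toOpenPartialHomeomorph_target, mem_univ, and_true]
  constructor
  · exact fun h => h.1
  · intro h
    exact ⟨h, 𝒰.ball_sub i (by norm_num) ((affB (𝒰.c i) (𝒰.R i) (𝒰.R_pos i)).map_target h)⟩

theorem mem_pch_ball {x : M} {r : ℝ} (hr : r ≤ 3) :
    (x ∈ (pch 𝒰 i k).source ∧ pch 𝒰 i k x ∈ ball (0 : C2) r) ↔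
      D.sh (-k) x ∈ 𝒰.B i (r / 6) := by
  have h6 : (0 : ℝ) < 6 / 𝒰.R i := by have := 𝒰.R_pos i; positivity
  have hR := 𝒰.R_pos i
  rw [mem_pch_source, 𝒰.mem_B (by norm_num : (1 / 2 : ℝ) ≤ 1),
    𝒰.mem_B (by linarith : r / 6 ≤ 1), mem_ball_zero_iff, pch_apply,
    norm_smul_sub_lt (R := 𝒰.R i) h6]
  have h1 : r / (6 / 𝒰.R i) = r / 6 * 𝒰.R i := by field_simp
  rw [h1]
  constructor
  · rintro ⟨⟨h2, -⟩, h3⟩
    exact ⟨h2, h3⟩
  · rintro ⟨h2, h3⟩
    refine ⟨⟨h2, ball_subset_ball ?_ h3⟩, h3⟩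
    nlinarith

end

variable [IsManifold 𝓘(ℂ, C2) ω M]

theorem pch_mem (i : Fin 𝒰.N) (k : ℤ) : pch 𝒰 i k ∈ H869.mAt M := by
  refine OpenPartialHomeomorph.mem_maximalAtlas_of_contMDiffOn _ ?_ ?_
  · have h1 : ContMDiff 𝓘(ℂ, C2) 𝓘(ℂ, C2) ω (D.sh (-k)) :=
      contMDiff_of_chartMap (D.chartMap_sh (-k))
    have h2 : ContMDiffOn 𝓘(ℂ, C2) 𝓘(ℂ, C2) ω (𝒰.e i) (𝒰.e i).source :=
      contMDiffOn_of_mem_maximalAtlas (H869.atlas_subset_mAt (𝒰.e_mem i))
    have h3 : ContMDiff 𝓘(ℂ, C2) 𝓘(ℂ, C2) ω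
        (fun z : C2 => ((6 / 𝒰.R i : ℝ) : ℂ) • (z - 𝒰.c i)) := by
      apply ContDiff.contMDiff
      fun_prop
    refine (h3.contMDiffOn.comp (t := univ) (h2.comp (t := (𝒰.e i).source) h1.contMDiffOn ?_)
      (fun _ _ => mem_univ _)).congr fun x _ => rfl
    intro x hx
    exact ((𝒰.mem_B (by norm_num : (1 / 2 : ℝ) ≤ 1)).1 (mem_pch_source.1 hx)).1
  · have h1 : ContMDiff 𝓘(ℂ, C2) 𝓘(ℂ, C2) ω (D.sh k) :=
      contMDiff_of_chartMap (D.chartMap_sh k)
    have h2 : ContMDiffOn 𝓘(ℂ, C2) 𝓘(ℂ, C2) ω (𝒰.e i).symm (𝒰.e i).target :=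
      contMDiffOn_symm_of_mem_maximalAtlas (H869.atlas_subset_mAt (𝒰.e_mem i))
    have h3 : ContMDiff 𝓘(ℂ, C2) 𝓘(ℂ, C2) ω
        (fun w : C2 => 𝒰.c i + ((𝒰.R i / 6 : ℝ) : ℂ) • w) := by
      apply ContDiff.contMDiff
      fun_prop
    refine (h1.contMDiffOn.comp (t := univ) (h2.comp (t := (𝒰.e i).target) h3.contMDiffOn ?_)
      (fun _ _ => mem_univ _)).congr fun w _ => pch_symm_apply w
    intro w hw
    rw [pch_target] at hw
    exact 𝒰.ball_sub i (by norm_num) ((affB (𝒰.c i) (𝒰.R i) (𝒰.R_pos i)).map_target hw)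

/-! ### patches -/

variable {𝒰}

/-- the patch of helper869 -/
def DFrame.patch {C : ℝ} {i : Fin 𝒰.N} {k : ℤ} {L : LB M ι} {a : M → Fin 2 → ℂ}
    {s t : M → EuclideanSpace ℂ ι} (h : DFrame 𝒰 C i k L a s t) : H869.Patch L a where
  e := pch 𝒰 i k
  e_mem := pch_mem 𝒰 i k
  ball_sub := by rw [pch_target]
  s := s
  t := t
  s_reg x _ _ := h.reg.at x
  t_reg x _ _ := h.reg'.at x
  s_sec x _ _ := h.sec x
  t_sec x _ _ := h.sec' x
  s_hol x hx _ := h.hol x (mem_pch_source.1 hx)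
  t_hol x hx _ := h.hol' x (mem_pch_source.1 hx)
  st x hx _ := h.one x (mem_pch_source.1 hx)

section

variable {C : ℝ} {i : Fin 𝒰.N} {k : ℤ} {L : LB M ι} {a : M → Fin 2 → ℂ}
    {s t : M → EuclideanSpace ℂ ι} (h : DFrame 𝒰 C i k L a s t)

@[simp] theorem DFrame.patch_e : h.patch.e = pch 𝒰 i k := rfl
@[simp] theorem DFrame.patch_s : h.patch.s = s := rfl
@[simp] theorem DFrame.patch_t : h.patch.t = t := rfl

theorem DFrame.mem_dom {r : ℝ} (hr : r ≤ 3) {x : M} :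
    x ∈ h.patch.dom r ↔ D.sh (-k) x ∈ 𝒰.B i (r / 6) := mem_pch_ball hr

theorem DFrame.dom_three : h.patch.dom 3 = (pch 𝒰 i k).source := by
  ext x
  rw [h.mem_dom le_rfl, mem_pch_source]
  norm_num

end

/-! ### comparison of components -/

theorem jac_pch {i : Fin 𝒰.N} {k : ℤ} {x : M} (hx : x ∈ (pch 𝒰 i k).source) :
    jac (pch 𝒰 i k) x = ((𝒰.R i / 6 : ℝ) : ℂ) • jac (𝒰.e i) (D.sh (-k) x) := by
  set y := D.sh (-k) x with hy
  set ρ : ℂ := ((𝒰.R i / 6 : ℝ) : ℂ) with hρ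
  have hyx : D.sh k y = x := by rw [hy, D.sh_sh_neg]
  have hyB := mem_pch_source.1 hx
  have hys : y ∈ (𝒰.e i).source := ((𝒰.mem_B (by norm_num : (1 / 2 : ℝ) ≤ 1)).1 hyB).1
  have hR := 𝒰.R_pos i
  -- the inverse chart in terms of `𝒰.e i`
  have hz : 𝒰.c i + ρ • pch 𝒰 i k x = 𝒰.e i y := by
    rw [pch_apply, smul_smul]
    have h : ρ * ((6 / 𝒰.R i : ℝ) : ℂ) = 1 := by
      rw [hρ, ← Complex.ofReal_mul, ← Complex.ofReal_one]
      congr 1
      field_simp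
    rw [h, one_smul, add_sub_cancel]
  have hgerm : ∀ᶠ w in 𝓝 (pch 𝒰 i k x), chartAt C2 x ((pch 𝒰 i k).symm w) =
      chartAt C2 y ((𝒰.e i).symm (𝒰.c i + ρ • w)) := by
    have h1 : ∀ᶠ y' in 𝓝 y, chartAt C2 x (D.sh k y') = chartAt C2 y y' := by
      have := (D.chartMap_sh k).germ y
      rw [hyx] at this
      exact this
    have h2 : Tendsto (fun w => (𝒰.e i).symm (𝒰.c i + ρ • w)) (𝓝 (pch 𝒰 i k x)) (𝓝 y) := by
      have h3 : Tendsto (fun w : C2 => 𝒰.c i + ρ • w) (𝓝 (pch 𝒰 i k x)) (𝓝 (𝒰.e i y)) := by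
        rw [← hz]
        exact (by fun_prop : Continuous fun w : C2 => 𝒰.c i + ρ • w).tendsto _
      exact (tendsto_symm_nhds hys).comp h3
    filter_upwards [h2.eventually h1] with w hw
    rw [pch_symm_apply]
    exact hw
  ext p j
  change dz j (fun z => chartAt C2 x ((pch 𝒰 i k).symm z) p) (pch 𝒰 i k x) =
    ρ * dz j (fun z => chartAt C2 y ((𝒰.e i).symm z) p) (𝒰.e i y)
  rw [dz_congr (hgerm.mono fun w hw => congrFun hw p)]
  set F : C2 → ℂ := fun z => chartAt C2 y ((𝒰.e i).symm z) p with hF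
  have hd : DifferentiableAt ℝ F (𝒰.e i y) := by
    have h1 := comp_analyticAt (trans_analyticAt (𝒰.e_mem i) (chart_mem_atlas C2 y) hys
      (mem_chart_source C2 y)) p
    exact h1.differentiableAt.restrictScalars ℝ
  have haff : HasFDerivAt (fun w : C2 => 𝒰.c i + ρ • w)
      (ρ • (ContinuousLinearMap.id ℝ C2)) (pch 𝒰 i k x) := by
    have h1 : HasFDerivAt (fun w : C2 => ρ • w) (ρ • ContinuousLinearMap.id ℝ C2)
        (pch 𝒰 i k x) := (hasFDerivAt_id _).const_smul ρ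
    exact h1.const_add _
  have hcomp : fderiv ℝ (fun w => F (𝒰.c i + ρ • w)) (pch 𝒰 i k x) =
      (fderiv ℝ F (𝒰.e i y)).comp (ρ • ContinuousLinearMap.id ℝ C2) := by
    have h1 : HasFDerivAt F (fderiv ℝ F (𝒰.e i y)) (𝒰.c i + ρ • pch 𝒰 i k x) := by
      rw [hz]; exact hd.hasFDerivAt
    exact (h1.comp (pch 𝒰 i k x) haff).fderiv
  have hs : ∀ v : C2, (fderiv ℝ F (𝒰.e i y)) (ρ • v) = ρ * fderiv ℝ F (𝒰.e i y) v := by
    intro v
    have h1 : ρ • v = (𝒰.R i / 6 : ℝ) • v := by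
      rw [hρ]
      exact Complex.coe_smul _ _
    rw [h1, map_smul, hρ]
    exact (Complex.real_smul)
  simp only [dz]
  change (1 / 2 : ℂ) • (fderiv ℝ (fun w => F (𝒰.c i + ρ • w)) (pch 𝒰 i k x) (Pi.single j 1) -
    Complex.I • fderiv ℝ (fun w => F (𝒰.c i + ρ • w)) (pch 𝒰 i k x) (Pi.single j Complex.I)) = _
  rw [hcomp]
  simp only [ContinuousLinearMap.comp_apply, smul_apply, ContinuousLinearMap.id_apply, hs,
    smul_eq_mul]
  ring

end Vale.Agent.P267.H181
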