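import Vale.Agent.P267.H181.PCh

/-!
# P267, package XA-FRAMES (helper181), part 9: components in a patch and invariant norms
-/

set_option linter.unusedSectionVars false

open Filter Topology Set Metric
open scoped ContDiff Manifold ComplexConjugate Matrix

noncomputable section

namespace Vale.Agent.P267.H181

open FL XT
open Vale.Agent.P267.H306 (bp bpL)

variable {M : Type} [TopologicalSpace M] [ChartedSpace C2 M] [IsManifold 𝓘(ℂ, C2) ω M]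
variable {ι : Type} [Fintype ι] [DecidableEq ι]
variable {D : XTData M} {𝒰 : PCov D}

section loc

variable {V : Type} [NormedAddCommGroup V] [InnerProductSpace ℂ V]
variable {i : Fin 𝒰.N} {k : ℤ} {x : M}

theorem e_source_of_pch (hx : x ∈ (pch 𝒰 i k).source) : D.sh (-k) x ∈ (𝒰.e i).source :=
  ((𝒰.mem_B (by norm_num : (1 / 2 : ℝ) ≤ 1)).1 (mem_pch_source.1 hx)).1

theorem det_jac_pch (hx : x ∈ (pch 𝒰 i k).source) : (jac (pch 𝒰 i k) x).det =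
    ((𝒰.R i / 6 : ℝ) : ℂ) ^ 2 * (jac (𝒰.e i) (D.sh (-k) x)).det := by
  rw [jac_pch hx, Matrix.det_smul, Fintype.card_fin]

theorem norm_loc0_pch (hx : x ∈ (pch 𝒰 i k).source) (κ : ℤ) (u : M → V) :
    ‖loc0 κ (pch 𝒰 i k) u (pch 𝒰 i k x)‖ = ((𝒰.R i / 6) ^ 2) ^ κ *
      ‖loc0 κ (𝒰.e i) (fun y => u (D.sh k y)) (𝒰.e i (D.sh (-k) x))‖ := by
  have hR := 𝒰.R_pos i
  rw [loc0_source hx, loc0_source (e_source_of_pch hx), det_jac_pch hx, D.sh_sh_neg, norm_smul,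
    norm_smul, norm_zpow, norm_zpow, norm_mul, norm_pow, Complex.norm_real,
    Real.norm_of_nonneg (by positivity), mul_zpow]
  ring

theorem norm_loc2_pch (hx : x ∈ (pch 𝒰 i k).source) (κ : ℤ) (u : M → V) :
    ‖loc2 κ (pch 𝒰 i k) u (pch 𝒰 i k x)‖ = (((𝒰.R i / 6) ^ 2) ^ κ * (𝒰.R i / 6) ^ 2) *
      ‖loc2 κ (𝒰.e i) (fun y => u (D.sh k y)) (𝒰.e i (D.sh (-k) x))‖ := by
  have hR := 𝒰.R_pos i
  rw [loc2_source hx, loc2_source (e_source_of_pch hx), det_jac_pch hx, D.sh_sh_neg, norm_smul,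
    norm_smul, norm_smul, norm_smul, norm_zpow, norm_zpow, RCLike.norm_conj, RCLike.norm_conj,
    norm_mul, norm_pow, Complex.norm_real, Real.norm_of_nonneg (by positivity), mul_zpow]
  ring

theorem loc1_pch (hx : x ∈ (pch 𝒰 i k).source) (κ : ℤ) (a : M → Fin 2 → V) (j : Fin 2) :
    loc1 κ (pch 𝒰 i k) a (pch 𝒰 i k x) j = ((((𝒰.R i / 6 : ℝ) : ℂ) ^ 2) ^ κ *
      ((𝒰.R i / 6 : ℝ) : ℂ)) •
      loc1 κ (𝒰.e i) (fun y => a (D.sh k y)) (𝒰.e i (D.sh (-k) x)) j := by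
  rw [loc1_source hx, loc1_source (e_source_of_pch hx), det_jac_pch hx, D.sh_sh_neg, jac_pch hx,
    mul_zpow]
  have h : ∑ p, conj ((((𝒰.R i / 6 : ℝ) : ℂ) • jac (𝒰.e i) (D.sh (-k) x)) p j) • a x p =
      ((𝒰.R i / 6 : ℝ) : ℂ) • ∑ p, conj (jac (𝒰.e i) (D.sh (-k) x) p j) • a x p := by
    rw [Finset.smul_sum]
    refine Finset.sum_congr rfl fun p _ => ?_
    rw [Matrix.smul_apply, smul_eq_mul, map_mul, Complex.conj_ofReal, smul_smul]
  rw [h]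
  simp only [smul_smul]
  congr 1
  ring

theorem norm_loc1_pch (hx : x ∈ (pch 𝒰 i k).source) (κ : ℤ) (a : M → Fin 2 → V) :
    ‖loc1 κ (pch 𝒰 i k) a (pch 𝒰 i k x)‖ = (((𝒰.R i / 6) ^ 2) ^ κ * (𝒰.R i / 6)) *
      ‖loc1 κ (𝒰.e i) (fun y => a (D.sh k y)) (𝒰.e i (D.sh (-k) x))‖ := by
  have hR := 𝒰.R_pos i
  have h : loc1 κ (pch 𝒰 i k) a (pch 𝒰 i k x) = ((((𝒰.R i / 6 : ℝ) : ℂ) ^ 2) ^ κ *
      ((𝒰.R i / 6 : ℝ) : ℂ)) •
      loc1 κ (𝒰.e i) (fun y => a (D.sh k y)) (𝒰.e i (D.sh (-k) x)) := by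
    funext j
    rw [Pi.smul_apply]
    exact loc1_pch hx κ a j
  rw [h, norm_smul, norm_mul, norm_zpow, norm_pow, Complex.norm_real,
    Real.norm_of_nonneg (by positivity)]

end loc

/-- two-sided comparison of components in all patch charts with the invariant norms -/
structure Cmp (𝒰 : PCov D) (κ : ℤ) (C : ℝ) : Prop where
  one_le : 1 ≤ C
  le0 : ∀ {i k x}, x ∈ (pch 𝒰 i k).source → ∀ {V : Type} [NormedAddCommGroup V]
    [InnerProductSpace ℂ V] (u : M → V),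
    ‖loc0 κ (pch 𝒰 i k) u (pch 𝒰 i k x)‖ ≤ C * n0 D.h κ u x
  ge0 : ∀ {i k x}, x ∈ (pch 𝒰 i k).source → ∀ {V : Type} [NormedAddCommGroup V]
    [InnerProductSpace ℂ V] (u : M → V),
    n0 D.h κ u x ≤ C * ‖loc0 κ (pch 𝒰 i k) u (pch 𝒰 i k x)‖
  le1 : ∀ {i k x}, x ∈ (pch 𝒰 i k).source → ∀ {V : Type} [NormedAddCommGroup V]
    [InnerProductSpace ℂ V] (u : M → Fin 2 → V),
    ‖loc1 κ (pch 𝒰 i k) u (pch 𝒰 i k x)‖ ≤ C * n1 D.h κ u x
  ge1 : ∀ {i k x}, x ∈ (pch 𝒰 i k).source → ∀ {V : Type} [NormedAddCommGroup V]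
    [InnerProductSpace ℂ V] (u : M → Fin 2 → V),
    n1 D.h κ u x ≤ C * ‖loc1 κ (pch 𝒰 i k) u (pch 𝒰 i k x)‖
  le2 : ∀ {i k x}, x ∈ (pch 𝒰 i k).source → ∀ {V : Type} [NormedAddCommGroup V]
    [InnerProductSpace ℂ V] (u : M → V),
    ‖loc2 κ (pch 𝒰 i k) u (pch 𝒰 i k x)‖ ≤ C * n2 D.h κ u x
  ge2 : ∀ {i k x}, x ∈ (pch 𝒰 i k).source → ∀ {V : Type} [NormedAddCommGroup V]
    [InnerProductSpace ℂ V] (u : M → V),
    n2 D.h κ u x ≤ C * ‖loc2 κ (pch 𝒰 i k) u (pch 𝒰 i k x)‖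

theorem scale_le {σ A B C S : ℝ} (hσ : 0 < σ) (hA : A ≤ C * B) (hB : 0 ≤ B)
    (h : σ * C ≤ S) : σ * A ≤ S * B := by
  calc σ * A ≤ σ * (C * B) := mul_le_mul_of_nonneg_left hA hσ.le
    _ = (σ * C) * B := by ring
    _ ≤ S * B := mul_le_mul_of_nonneg_right h hB

theorem scale_ge {σ A B C S : ℝ} (hσ : 0 < σ) (hA : B ≤ C * A) (hA0 : 0 ≤ A)
    (h : σ⁻¹ * C ≤ S) : B ≤ S * (σ * A) := by
  calc B ≤ C * A := hA
    _ = (σ⁻¹ * C) * (σ * A) := by field_simp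
    _ ≤ S * (σ * A) := mul_le_mul_of_nonneg_right h (by positivity)

theorem exists_cmp (𝒰 : PCov D) (κ : ℤ) : ∃ C, Cmp 𝒰 κ C := by
  have hK : ∀ i, IsCompact (closedBall (𝒰.c i) (𝒰.R i)) := fun i => isCompact_closedBall _ _
  choose C0 hC0 h0 using fun i => H378.n0_compare.{0} D.herm (𝒰.e_mem i) (𝒰.sub i) (hK i) κ
  choose C1 hC1 h1 using fun i => H378.n1_compare.{0} D.herm (𝒰.e_mem i) (𝒰.sub i) (hK i) κ
  choose C2' hC2 h2 using fun i => H378.n2_compare.{0} D.herm (𝒰.e_mem i) (𝒰.sub i) (hK i) κ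
  -- the six constants
  set σ : Fin 𝒰.N → ℝ := fun i => 𝒰.R i / 6 with hσ
  have hσ0 : ∀ i, 0 < σ i := fun i => by have := 𝒰.R_pos i; positivity
  set S0 : Fin 𝒰.N → ℝ := fun i => (σ i ^ 2) ^ κ
  set S1 : Fin 𝒰.N → ℝ := fun i => (σ i ^ 2) ^ κ * σ i
  set S2 : Fin 𝒰.N → ℝ := fun i => (σ i ^ 2) ^ κ * σ i ^ 2
  have hS0 : ∀ i, 0 < S0 i := fun i => zpow_pos (pow_pos (hσ0 i) 2) κ
  have hS1 : ∀ i, 0 < S1 i := fun i => mul_pos (hS0 i) (hσ0 i)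
  have hS2 : ∀ i, 0 < S2 i := fun i => mul_pos (hS0 i) (pow_pos (hσ0 i) 2)
  set T : Fin 𝒰.N → ℝ := fun i => S0 i * C0 i + (S0 i)⁻¹ * C0 i + (S1 i * C1 i + (S1 i)⁻¹ * C1 i) +
    (S2 i * C2' i + (S2 i)⁻¹ * C2' i) with hT
  have p1 : ∀ i, 0 < S0 i * C0 i := fun i => mul_pos (hS0 i) (hC0 i)
  have p2 : ∀ i, 0 < (S0 i)⁻¹ * C0 i := fun i => mul_pos (inv_pos.2 (hS0 i)) (hC0 i)
  have p3 : ∀ i, 0 < S1 i * C1 i := fun i => mul_pos (hS1 i) (hC1 i)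
  have p4 : ∀ i, 0 < (S1 i)⁻¹ * C1 i := fun i => mul_pos (inv_pos.2 (hS1 i)) (hC1 i)
  have p5 : ∀ i, 0 < S2 i * C2' i := fun i => mul_pos (hS2 i) (hC2 i)
  have p6 : ∀ i, 0 < (S2 i)⁻¹ * C2' i := fun i => mul_pos (inv_pos.2 (hS2 i)) (hC2 i)
  have hT0 : ∀ i, 0 ≤ T i := fun i => by
    have := p1 i; have := p2 i; have := p3 i; have := p4 i; have := p5 i; have := p6 i
    simp only [hT]; linarith
  set C : ℝ := 1 + ∑ i, T i with hCdef
  have hTC : ∀ i, T i ≤ C := fun i => by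
    have : T i ≤ ∑ i, T i := Finset.single_le_sum (f := T) (fun i _ => hT0 i) (Finset.mem_univ i)
    rw [hCdef]; linarith
  have q1 : ∀ i, S0 i * C0 i ≤ C := fun i => le_trans (by
    have := p1 i; have := p2 i; have := p3 i; have := p4 i; have := p5 i; have := p6 i
    simp only [hT]; linarith) (hTC i)
  have q2 : ∀ i, (S0 i)⁻¹ * C0 i ≤ C := fun i => le_trans (by
    have := p1 i; have := p2 i; have := p3 i; have := p4 i; have := p5 i; have := p6 i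
    simp only [hT]; linarith) (hTC i)
  have q3 : ∀ i, S1 i * C1 i ≤ C := fun i => le_trans (by
    have := p1 i; have := p2 i; have := p3 i; have := p4 i; have := p5 i; have := p6 i
    simp only [hT]; linarith) (hTC i)
  have q4 : ∀ i, (S1 i)⁻¹ * C1 i ≤ C := fun i => le_trans (by
    have := p1 i; have := p2 i; have := p3 i; have := p4 i; have := p5 i; have := p6 i
    simp only [hT]; linarith) (hTC i)
  have q5 : ∀ i, S2 i * C2' i ≤ C := fun i => le_trans (by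
    have := p1 i; have := p2 i; have := p3 i; have := p4 i; have := p5 i; have := p6 i
    simp only [hT]; linarith) (hTC i)
  have q6 : ∀ i, (S2 i)⁻¹ * C2' i ≤ C := fun i => le_trans (by
    have := p1 i; have := p2 i; have := p3 i; have := p4 i; have := p5 i; have := p6 i
    simp only [hT]; linarith) (hTC i)
  have hmem : ∀ {i : Fin 𝒰.N} {k : ℤ} {x : M}, x ∈ (pch 𝒰 i k).source →
      𝒰.e i (D.sh (-k) x) ∈ closedBall (𝒰.c i) (𝒰.R i) := by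
    intro i k x hx
    have h := ((𝒰.mem_B (by norm_num : (1 / 2 : ℝ) ≤ 1)).1 (mem_pch_source.1 hx)).2
    exact closedBall_subset_closedBall (by linarith [𝒰.R_pos i]) (ball_subset_closedBall h)
  have hsy : ∀ {i : Fin 𝒰.N} {k : ℤ} {x : M}, x ∈ (pch 𝒰 i k).source →
      (𝒰.e i).symm (𝒰.e i (D.sh (-k) x)) = D.sh (-k) x := fun {i k x} hx =>
    (𝒰.e i).left_inv (e_source_of_pch hx)
  refine ⟨C, ?_, ?_, ?_, ?_, ?_, ?_, ?_⟩
  · rw [hCdef]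
    have : 0 ≤ ∑ i, T i := Finset.sum_nonneg fun i _ => hT0 i
    linarith
  · intro i k x hx V _ _ u
    have h := h0 i _ (hmem hx) (fun y => u (D.sh k y))
    rw [hsy hx, D.n0_comp_sh, D.sh_sh_neg] at h
    rw [norm_loc0_pch hx]
    exact scale_le (hS0 i) h.1 (n0_nonneg D.herm _ _ _) (q1 i)
  · intro i k x hx V _ _ u
    have h := h0 i _ (hmem hx) (fun y => u (D.sh k y))
    rw [hsy hx, D.n0_comp_sh, D.sh_sh_neg] at h
    rw [norm_loc0_pch hx]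
    exact scale_ge (hS0 i) h.2 (norm_nonneg _) (q2 i)
  · intro i k x hx V _ _ u
    have h := h1 i _ (hmem hx) (fun y => u (D.sh k y))
    rw [hsy hx, D.n1_comp_sh, D.sh_sh_neg] at h
    rw [norm_loc1_pch hx]
    exact scale_le (hS1 i) h.1 (n1_nonneg D.herm _ _ _) (q3 i)
  · intro i k x hx V _ _ u
    have h := h1 i _ (hmem hx) (fun y => u (D.sh k y))
    rw [hsy hx, D.n1_comp_sh, D.sh_sh_neg] at h
    rw [norm_loc1_pch hx]
    exact scale_ge (hS1 i) h.2 (norm_nonneg _) (q4 i)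
  · intro i k x hx V _ _ u
    have h := h2 i _ (hmem hx) (fun y => u (D.sh k y))
    rw [hsy hx, D.n2_comp_sh, D.sh_sh_neg] at h
    rw [norm_loc2_pch hx]
    exact scale_le (hS2 i) h.1 (n2_nonneg D.herm _ _ _) (q5 i)
  · intro i k x hx V _ _ u
    have h := h2 i _ (hmem hx) (fun y => u (D.sh k y))
    rw [hsy hx, D.n2_comp_sh, D.sh_sh_neg] at h
    rw [norm_loc2_pch hx]
    exact scale_ge (hS2 i) h.2 (norm_nonneg _) (q6 i)

theorem Cmp.mono {κ : ℤ} {C C' : ℝ} (h : Cmp 𝒰 κ C) (hC : C ≤ C') : Cmp 𝒰 κ C' where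
  one_le := h.one_le.trans hC
  le0 hx _ _ _ u := (h.le0 hx u).trans
    (mul_le_mul_of_nonneg_right hC (n0_nonneg D.herm _ _ _))
  ge0 hx _ _ _ u := (h.ge0 hx u).trans (mul_le_mul_of_nonneg_right hC (norm_nonneg _))
  le1 hx _ _ _ u := (h.le1 hx u).trans
    (mul_le_mul_of_nonneg_right hC (n1_nonneg D.herm _ _ _))
  ge1 hx _ _ _ u := (h.ge1 hx u).trans (mul_le_mul_of_nonneg_right hC (norm_nonneg _))
  le2 hx _ _ _ u := (h.le2 hx u).trans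
    (mul_le_mul_of_nonneg_right hC (n2_nonneg D.herm _ _ _))
  ge2 hx _ _ _ u := (h.ge2 hx u).trans (mul_le_mul_of_nonneg_right hC (norm_nonneg _))

/-- one constant for `κ = 0` and `κ = 1` -/
theorem exists_cmp01 (𝒰 : PCov D) : ∃ C, Cmp 𝒰 0 C ∧ Cmp 𝒰 1 C := by
  obtain ⟨C, h⟩ := exists_cmp 𝒰 0
  obtain ⟨C', h'⟩ := exists_cmp 𝒰 1
  exact ⟨max C C', h.mono (le_max_left _ _), h'.mono (le_max_right _ _)⟩

end Vale.Agent.P267.H181
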