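import Vale.Agent.P267.H181.PCh2

/-!
# P267, package XA-FRAMES (helper181), part 10: bounds for patches

`PatchBd D p K`: all components in the patch `p` (helper869) are comparable to the invariant norms.
`DFrame.patchBd`, `trB`, `exists_lebesgue`, `bd_of_func`.
-/

set_option linter.unusedSectionVars false

open Filter Topology Set Metric
open scoped ContDiff Manifold ComplexConjugate Matrix

noncomputable section

namespace Vale.Agent.P267.H181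

open FL XT
open Vale.Agent.P267.H306 (bp bpL norm_bp_le bpL_apply Test1)
open Vale.Agent.P267.H869 (Patch mAt)

variable {M : Type} [TopologicalSpace M] [ChartedSpace C2 M]
variable {ι : Type} [Fintype ι] [DecidableEq ι]

section pt

variable {V W : Type*} [NormedAddCommGroup V] [InnerProductSpace ℂ V] [NormedAddCommGroup W]
  [InnerProductSpace ℂ W]
variable {h : M → Matrix (Fin 2) (Fin 2) ℂ}

theorem n0_clm_le (hh : IsHerm h) (κ : ℤ) (T : M → V →L[ℂ] W) {C : ℝ} (u : M → V) {x : M}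
    (hT : ‖T x‖ ≤ C) : n0 h κ (fun y => T y (u y)) x ≤ C * n0 h κ u x := by
  rw [n0, n0, ← mul_assoc]
  exact mul_le_mul_of_nonneg_right (((T x).le_opNorm _).trans
    (mul_le_mul_of_nonneg_right hT (norm_nonneg _))) (Real.rpow_nonneg (dh_pos hh x).le _)

theorem n2_clm_le (hh : IsHerm h) (κ : ℤ) (T : M → V →L[ℂ] W) {C : ℝ} (u : M → V) {x : M}
    (hT : ‖T x‖ ≤ C) : n2 h κ (fun y => T y (u y)) x ≤ C * n2 h κ u x := by
  rw [n2, n2, ← mul_assoc]
  exact mul_le_mul_of_nonneg_right (((T x).le_opNorm _).trans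
    (mul_le_mul_of_nonneg_right hT (norm_nonneg _))) (Real.rpow_nonneg (dh_pos hh x).le _)

theorem n1_clm_le (hh : IsHerm h) (κ : ℤ) (T : M → V →L[ℂ] W) {C : ℝ} (u : M → Fin 2 → V) {x : M}
    (hT : ‖T x‖ ≤ C) : n1 h κ (fun y i => T y (u y i)) x ≤ C * n1 h κ u x := by
  obtain ⟨B, hB, -⟩ := exists_coframe (hh.posDef x)
  have hC : 0 ≤ C := (norm_nonneg _).trans hT
  rw [n1_coframe κ _ x hB, n1_coframe κ _ x hB, ← mul_assoc]
  refine mul_le_mul_of_nonneg_right ?_ (Real.rpow_nonneg (dh_pos hh x).le _)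
  have e : ∀ k, ∑ p, conj (B k p) • T x (u x p) = T x (∑ p, conj (B k p) • u x p) := by
    intro k
    rw [map_sum]
    exact Finset.sum_congr rfl fun p _ => (map_smul _ _ _).symm
  have e2 : ∀ k, ‖T x (∑ p, conj (B k p) • u x p)‖ ^ 2 ≤
      C ^ 2 * ‖∑ p, conj (B k p) • u x p‖ ^ 2 := by
    intro k
    rw [← mul_pow]
    exact pow_le_pow_left₀ (norm_nonneg _) (((T x).le_opNorm _).trans
      (mul_le_mul_of_nonneg_right hT (norm_nonneg _))) 2
  rw [e, e]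
  calc Real.sqrt (‖T x (∑ p, conj (B 0 p) • u x p)‖ ^ 2 + ‖T x (∑ p, conj (B 1 p) • u x p)‖ ^ 2)
      ≤ Real.sqrt (C ^ 2 * (‖∑ p, conj (B 0 p) • u x p‖ ^ 2 +
        ‖∑ p, conj (B 1 p) • u x p‖ ^ 2)) := by
        apply Real.sqrt_le_sqrt
        rw [mul_add]
        exact add_le_add (e2 0) (e2 1)
    _ = C * Real.sqrt (‖∑ p, conj (B 0 p) • u x p‖ ^ 2 + ‖∑ p, conj (B 1 p) • u x p‖ ^ 2) := by
        rw [Real.sqrt_mul (by positivity), Real.sqrt_sq hC]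

end pt

/-- pairing with a vector as a continuous linear map -/
theorem norm_bpL_left_le (u : EuclideanSpace ℂ ι) : ‖bpL u‖ ≤ ‖u‖ :=
  ContinuousLinearMap.opNorm_le_bound _ (norm_nonneg _) fun v => by
    rw [bpL_apply]; exact norm_bp_le u v

theorem norm_bpL_right_le (v : EuclideanSpace ℂ ι) : ‖(bpL (ι := ι)).flip v‖ ≤ ‖v‖ :=
  ContinuousLinearMap.opNorm_le_bound _ (norm_nonneg _) fun u => by
    rw [ContinuousLinearMap.flip_apply, bpL_apply, mul_comm]; exact norm_bp_le u v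

/-- multiplication of a scalar by a vector -/
def smulR (v : EuclideanSpace ℂ ι) : ℂ →L[ℂ] EuclideanSpace ℂ ι :=
  (ContinuousLinearMap.id ℂ ℂ).smulRight v

omit [DecidableEq ι] in
theorem smulR_apply (v : EuclideanSpace ℂ ι) (c : ℂ) : smulR v c = c • v := rfl

omit [DecidableEq ι] in
theorem norm_smulR_le (v : EuclideanSpace ℂ ι) : ‖smulR v‖ ≤ ‖v‖ :=
  ContinuousLinearMap.opNorm_le_bound _ (norm_nonneg _) fun c => by
    rw [smulR_apply, norm_smul, mul_comm]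

/-- bounds in a patch -/
structure PatchBd (D : XTData M) {L : LB M ι} {a : M → Fin 2 → ℂ} (p : Patch L a) (K : ℝ) :
    Prop where
  one_le : 1 ≤ K
  s_le : ∀ x ∈ p.dom 3, ‖p.s x‖ ≤ K
  t_le : ∀ x ∈ p.dom 3, ‖p.t x‖ ≤ K
  c1_le : ∀ x ∈ p.dom 3, ∀ η, ‖p.c1 η (p.e x)‖ ≤ K * n1 D.h 1 η x
  c2_le : ∀ x ∈ p.dom 3, ∀ w, ‖p.c2 w (p.e x)‖ ≤ K * n2 D.h 1 w x
  d0_le : ∀ x ∈ p.dom 3, ∀ u, ‖p.d0 u (p.e x)‖ ≤ K * n0 D.h 0 u x
  d1_le : ∀ x ∈ p.dom 3, ∀ v, ‖p.d1 v (p.e x)‖ ≤ K * n1 D.h 0 v x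
  d2_le : ∀ x ∈ p.dom 3, ∀ r, ‖p.d2 r (p.e x)‖ ≤ K * n2 D.h 0 r x
  le_d0 : ∀ x ∈ p.dom 3, ∀ u, LB.act (L.P x) (u x) = u x → n0 D.h 0 u x ≤ K * ‖p.d0 u (p.e x)‖
  le_d1 : ∀ x ∈ p.dom 3, ∀ v, (∀ i, LB.act (L.P x) (v x i) = v x i) →
    n1 D.h 0 v x ≤ K * ‖p.d1 v (p.e x)‖
  le_d2 : ∀ x ∈ p.dom 3, ∀ r, LB.act (L.P x) (r x) = r x → n2 D.h 0 r x ≤ K * ‖p.d2 r (p.e x)‖
  J1_le : ∀ x ∈ p.dom 3, ∀ g, n1 D.h 1 (p.J1 g) x ≤ K * ‖g (p.e x)‖
  J2_le : ∀ x ∈ p.dom 3, ∀ g, n2 D.h 1 (p.J2 g) x ≤ K * ‖g (p.e x)‖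
  form_le : ∀ x ∈ p.dom 3, ∀ c : M → Fin 2 → ℂ, ‖loc1 0 p.e c (p.e x)‖ ≤ K * n1 D.h 0 c x
  le_form : ∀ x ∈ p.dom 3, ∀ c : M → Fin 2 → ℂ, n1 D.h 0 c x ≤ K * ‖loc1 0 p.e c (p.e x)‖

variable [IsManifold 𝓘(ℂ, C2) ω M]
variable {D : XTData M} {𝒰 : PCov D}

section

variable {C C' : ℝ} {i : Fin 𝒰.N} {k : ℤ} {L : LB M ι} {a : M → Fin 2 → ℂ}
    {s t : M → EuclideanSpace ℂ ι}

theorem DFrame.patchBd (h : DFrame 𝒰 C i k L a s t) (hC : 1 ≤ C) (hc0 : Cmp 𝒰 0 C')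
    (hc1 : Cmp 𝒰 1 C') : PatchBd D h.patch (C' * C) := by
  have hC' := hc0.one_le
  have hsrc : ∀ x ∈ h.patch.dom 3, x ∈ (pch 𝒰 i k).source := fun x hx => by
    rw [h.dom_three] at hx; exact hx
  have hs : ∀ x ∈ h.patch.dom 3, ‖s x‖ ≤ C := fun x hx => h.ub x (mem_pch_source.1 (hsrc x hx))
  have ht : ∀ x ∈ h.patch.dom 3, ‖t x‖ ≤ C := fun x hx => h.ub' x (mem_pch_source.1 (hsrc x hx))
  have hCC : C ≤ C' * C := by nlinarith
  have hle : ∀ {A B E : ℝ}, A ≤ C' * B → B ≤ C * E → A ≤ C' * C * E := by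
    intro A B E h1 h2
    calc A ≤ C' * B := h1
      _ ≤ C' * (C * E) := mul_le_mul_of_nonneg_left h2 (by linarith)
      _ = C' * C * E := by ring
  have hle' : ∀ {A B E : ℝ}, A ≤ C * B → B ≤ C' * E → A ≤ C' * C * E := by
    intro A B E h1 h2
    calc A ≤ C * B := h1
      _ ≤ C * (C' * E) := mul_le_mul_of_nonneg_left h2 (by linarith)
      _ = C' * C * E := by ring
  have hball : ∀ x ∈ h.patch.dom 3, h.patch.e x ∈ ball (0 : C2) 3 := fun x hx => hx.2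
  refine ⟨by nlinarith, fun x hx => (hs x hx).trans hCC, fun x hx => (ht x hx).trans hCC,
    ?_, ?_, ?_, ?_, ?_, ?_, ?_, ?_, ?_, ?_, ?_, ?_⟩
  · intro x hx η
    rw [Patch.c1, if_pos (hball x hx)]
    exact hle (hc1.le1 (hsrc x hx) _) (n1_clm_le D.herm 1 (fun y => bpL (s y)) η
      ((norm_bpL_left_le _).trans (hs x hx)))
  · intro x hx w
    rw [Patch.c2, if_pos (hball x hx)]
    exact hle (hc1.le2 (hsrc x hx) _) (n2_clm_le D.herm 1 (fun y => bpL (s y)) w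
      ((norm_bpL_left_le _).trans (hs x hx)))
  · intro x hx u
    exact hle (hc0.le0 (hsrc x hx) _) (n0_clm_le D.herm 0 (fun y => (bpL (ι := ι)).flip (t y)) u
      ((norm_bpL_right_le _).trans (ht x hx)))
  · intro x hx u
    exact hle (hc0.le1 (hsrc x hx) _) (n1_clm_le D.herm 0 (fun y => (bpL (ι := ι)).flip (t y)) u
      ((norm_bpL_right_le _).trans (ht x hx)))
  · intro x hx u
    exact hle (hc0.le2 (hsrc x hx) _) (n2_clm_le D.herm 0 (fun y => (bpL (ι := ι)).flip (t y)) u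
      ((norm_bpL_right_le _).trans (ht x hx)))
  · intro x hx u hu
    have h1 : n0 D.h 0 u x = n0 D.h 0 (fun y => smulR (s y) (bp (u y) (t y))) x := by
      have h2 : u x = smulR (s x) (bp (u x) (t x)) := h.patch.eq_smul_s hx hu
      simp only [n0]
      rw [← h2]
    rw [h1]
    exact hle' (n0_clm_le D.herm 0 (fun y => smulR (s y)) _
      ((norm_smulR_le _).trans (hs x hx))) (hc0.ge0 (hsrc x hx) _)
  · intro x hx u hu
    have h1 : n1 D.h 0 u x = n1 D.h 0 (fun y i => smulR (s y) (bp (u y i) (t y))) x := by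
      have h2 : u x = fun i => smulR (s x) (bp (u x i) (t x)) := by
        funext i
        exact h.patch.eq_smul_s hx (hu i)
      simp only [n1, nsq1]
      conv_lhs => rw [h2]
    rw [h1]
    exact hle' (n1_clm_le D.herm 0 (fun y => smulR (s y)) _
      ((norm_smulR_le _).trans (hs x hx))) (hc0.ge1 (hsrc x hx) _)
  · intro x hx u hu
    have h1 : n2 D.h 0 u x = n2 D.h 0 (fun y => smulR (s y) (bp (u y) (t y))) x := by
      have h2 : u x = smulR (s x) (bp (u x) (t x)) := h.patch.eq_smul_s hx hu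
      simp only [n2]
      rw [← h2]
    rw [h1]
    exact hle' (n2_clm_le D.herm 0 (fun y => smulR (s y)) _
      ((norm_smulR_le _).trans (hs x hx))) (hc0.ge2 (hsrc x hx) _)
  · intro x hx g
    have h1 := hc1.ge1 (hsrc x hx) (ext1 1 (pch 𝒰 i k) g)
    rw [H869.max_loc1_ext1 (pch_mem 𝒰 i k) ((pch 𝒰 i k).map_source (hsrc x hx))] at h1
    exact hle' (n1_clm_le D.herm 1 (fun y => smulR (t y)) _
      ((norm_smulR_le _).trans (ht x hx))) h1
  · intro x hx g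
    have h1 := hc1.ge2 (hsrc x hx) (ext2 1 (pch 𝒰 i k) g)
    rw [H869.max_loc2_ext2 (pch_mem 𝒰 i k) ((pch 𝒰 i k).map_source (hsrc x hx))] at h1
    exact hle' (n2_clm_le D.herm 1 (fun y => smulR (t y)) _
      ((norm_smulR_le _).trans (ht x hx))) h1
  · intro x hx c
    refine (hc0.le1 (hsrc x hx) c).trans (mul_le_mul_of_nonneg_right ?_ (n1_nonneg D.herm _ _ _))
    nlinarith
  · intro x hx c
    refine (hc0.ge1 (hsrc x hx) c).trans (mul_le_mul_of_nonneg_right ?_ (norm_nonneg _))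
    nlinarith

end

/-! ### transition maps -/

theorem norm_jacM_le {L : LB M ι} {a : M → Fin 2 → ℂ} {p q : Patch L a} {K : ℝ}
    (hp : PatchBd D p K) (hq : PatchBd D q K) {x : M} (hxp : x ∈ p.dom 3) (hxq : x ∈ q.dom 3)
    (i j : Fin 2) : ‖jacM p.e q.e x i j‖ ≤ K ^ 2 := by
  have hK := hp.one_le
  set c : M → Fin 2 → ℂ := ext1 0 q.e fun _ => Pi.single i 1 with hc
  have h1 : loc1 0 q.e c (q.e x) = Pi.single i 1 :=
    H869.max_loc1_ext1 q.e_mem (q.e.map_source hxq.1)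
  have h2 := H869.max_loc1_change (κ := 0) p.e_mem q.e_mem hxp.1 hxq.1 c j
  rw [h1, zpow_zero, one_smul, Fintype.sum_eq_single i (fun b hb => by
    rw [Pi.single_eq_of_ne hb, smul_zero]), Pi.single_eq_same] at h2
  have h3 : ‖jacM p.e q.e x i j‖ = ‖loc1 0 p.e c (p.e x) j‖ := by
    rw [h2, norm_smul, norm_one, mul_one, RCLike.norm_conj]
  rw [h3]
  calc ‖loc1 0 p.e c (p.e x) j‖ ≤ ‖loc1 0 p.e c (p.e x)‖ := norm_le_pi_norm _ j
    _ ≤ K * n1 D.h 0 c x := hp.form_le x hxp c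
    _ ≤ K * (K * ‖loc1 0 q.e c (q.e x)‖) :=
        mul_le_mul_of_nonneg_left (hq.le_form x hxq c) (by linarith)
    _ ≤ K * (K * 1) := by
        gcongr
        rw [h1, Pi.norm_single, norm_one]
    _ = K ^ 2 := by ring

theorem trB {L : LB M ι} {a : M → Fin 2 → ℂ} {p q : Patch L a} {K : ℝ}
    (hp : PatchBd D p K) (hq : PatchBd D q K) {N : Set M} (hN : N ⊆ p.dom 3)
    (hN' : N ⊆ q.dom 3) : p.TrB q N (K ^ 2) where
  pq x hx i j := norm_jacM_le hp hq (hN hx) (hN' hx) i j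
  qp x hx i j := norm_jacM_le hq hp (hN' hx) (hN hx) i j
  fr x hx := by
    refine (norm_bp_le _ _).trans ?_
    rw [pow_two]
    exact mul_le_mul (hp.s_le x (hN hx)) (hq.t_le x (hN' hx)) (norm_nonneg _)
      (by linarith [hp.one_le])

end Vale.Agent.P267.H181
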