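import Vale.Agent.P267.H181.PCh3

/-!
# P267, package XA-FRAMES (helper181), part 11: Lebesgue number; local bounds of the functional
-/

set_option linter.unusedSectionVars false

open Filter Topology Set Metric
open scoped ContDiff Manifold ComplexConjugate Matrix

noncomputable section

namespace Vale.Agent.P267.H181

open FL XT
open Vale.Agent.P267.H306 (bp bpL norm_bp_le bpL_apply Test1)
open Vale.Agent.P267.H869 (Patch mAt)

variable {M : Type} [TopologicalSpace M] [ChartedSpace C2 M]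
variable {ι : Type} [Fintype ι] [DecidableEq ι]
variable {D : XTData M}

theorem exists_pos_le {T : Type*} [Finite T] (δ : T → ℝ) (h : ∀ t, 0 < δ t) :
    ∃ ε > 0, ∀ t, ε ≤ δ t := by
  rcases isEmpty_or_nonempty T with he | hne
  · exact ⟨1, one_pos, fun t => (he.false t).elim⟩
  · obtain ⟨t, ht⟩ := Finite.exists_min δ
    exact ⟨δ t, h t, ht⟩

/-! ### Lebesgue number -/

section leb

variable {𝒰 : PCov D} {i i' : Fin 𝒰.N} {k k' : ℤ}

theorem pch_zero (x : M) : pch 𝒰 i k x = pch 𝒰 i 0 (D.sh (-k) x) := by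
  rw [pch_apply, pch_apply, neg_zero, D.sh_zero]

theorem pch_symm_zero (w : C2) : (pch 𝒰 i k).symm w = D.sh k ((pch 𝒰 i 0).symm w) := by
  rw [pch_symm_apply, pch_symm_apply, D.sh_zero]

theorem mem_pch_closedBall {x : M} {r : ℝ} (hr : r < 3) :
    (x ∈ (pch 𝒰 i k).source ∧ pch 𝒰 i k x ∈ closedBall (0 : C2) r) ↔
      D.sh (-k) x ∈ 𝒰.Bc i (r / 6) := by
  have hR := 𝒰.R_pos i
  have h6 : (0 : ℝ) < 6 / 𝒰.R i := by positivity
  have key : ∀ z : C2, ‖((6 / 𝒰.R i : ℝ) : ℂ) • (z - 𝒰.c i)‖ ≤ r ↔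
      z ∈ closedBall (𝒰.c i) (r / 6 * 𝒰.R i) := by
    intro z
    rw [norm_smul, Complex.norm_real, Real.norm_of_nonneg h6.le, mem_closedBall, dist_eq_norm,
      mul_comm, ← le_div_iff₀ h6]
    have : r / (6 / 𝒰.R i) = r / 6 * 𝒰.R i := by field_simp
    rw [this]
  rw [mem_pch_source, 𝒰.mem_B (by norm_num : (1 / 2 : ℝ) ≤ 1), mem_closedBall_zero_iff, pch_apply,
    key]
  constructor
  · rintro ⟨⟨h2, -⟩, h3⟩
    exact ⟨_, h3, (𝒰.e i).left_inv h2⟩
  · rintro ⟨z, hz, hzx⟩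
    have hz' : z ∈ ball (𝒰.c i) (1 / 2 * 𝒰.R i) :=
      closedBall_subset_ball (by nlinarith) hz
    have hzt : z ∈ (𝒰.e i).target := 𝒰.ball_sub i (by norm_num) hz'
    rw [← hzx, (𝒰.e i).right_inv hzt]
    exact ⟨⟨(𝒰.e i).map_target hzt, hz'⟩, hz⟩

theorem exists_lebesgue [T2Space M] (𝒰 : PCov D) {r₁ r₂ r₃ r₄ : ℝ} (h13 : r₁ < r₃) (h24 : r₂ < r₄)
    (h3 : r₃ ≤ 3) (h4 : r₄ ≤ 3) :
    ∃ δ > 0, ∀ (i i' : Fin 𝒰.N) (k k' : ℤ) (x : M),
      x ∈ (pch 𝒰 i k).source → pch 𝒰 i k x ∈ closedBall (0 : C2) r₁ →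
      x ∈ (pch 𝒰 i' k').source → pch 𝒰 i' k' x ∈ closedBall (0 : C2) r₂ →
      ball (pch 𝒰 i k x) δ ⊆ ball (0 : C2) r₃ ∧ ∀ z ∈ ball (pch 𝒰 i k x) δ,
        (pch 𝒰 i k).symm z ∈ (pch 𝒰 i' k').source ∧
          pch 𝒰 i' k' ((pch 𝒰 i k).symm z) ∈ ball (0 : C2) r₄ := by
  have hstep : ∀ (i i' : Fin 𝒰.N) (d : ℤ), ∃ δ > 0, ∀ y : M,
      y ∈ (pch 𝒰 i 0).source → pch 𝒰 i 0 y ∈ closedBall (0 : C2) r₁ →
      D.sh (-d) y ∈ 𝒰.Bc i' (r₂ / 6) → ∀ z ∈ ball (pch 𝒰 i 0 y) δ,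
        D.sh (-d) ((pch 𝒰 i 0).symm z) ∈ 𝒰.B i' (r₄ / 6) := by
    intro i i' d
    set g : C2 → M := fun z => D.sh (-d) ((pch 𝒰 i 0).symm z) with hg
    have hgc : ContinuousOn g (ball (0 : C2) 3) := by
      refine (D.continuous_sh (-d)).comp_continuousOn ?_
      have := (pch 𝒰 i 0).continuousOn_symm
      rwa [pch_target] at this
    set K : Set C2 := closedBall (0 : C2) r₁ ∩ g ⁻¹' (𝒰.Bc i' (r₂ / 6)) with hK
    have hKc : IsCompact K := by
      have h1 : IsClosed K := by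
        refine ContinuousOn.preimage_isClosed_of_isClosed
          (hgc.mono (closedBall_subset_ball (by linarith))) isClosed_closedBall ?_
        exact (𝒰.isCompact_Bc i' (by linarith)).isClosed
      exact (isCompact_closedBall (0 : C2) r₁).of_isClosed_subset h1 inter_subset_left
    set O : Set C2 := ball (0 : C2) 3 ∩ g ⁻¹' (𝒰.B i' (r₄ / 6)) with hO
    have hOo : IsOpen O := hgc.isOpen_inter_preimage isOpen_ball (𝒰.isOpen_B i' (by linarith))
    have hKO : K ⊆ O := fun z hz => ⟨closedBall_subset_ball (by linarith) hz.1,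
      𝒰.Bc_sub_B i' (by linarith) hz.2⟩
    obtain ⟨δ, hδ, hsub⟩ := hKc.exists_thickening_subset_open hOo hKO
    refine ⟨δ, hδ, fun y hy hyr hyd z hz => ?_⟩
    have hyK : pch 𝒰 i 0 y ∈ K := by
      refine ⟨hyr, ?_⟩
      rw [mem_preimage, hg]
      simp only [(pch 𝒰 i 0).left_inv hy]
      exact hyd
    exact (hsub (mem_thickening_iff.2 ⟨_, hyK, hz⟩)).2
  choose δ hδ0 hδ using hstep
  obtain ⟨ε, hε, hle⟩ := exists_pos_le
    (fun q : Fin 𝒰.N × Fin 𝒰.N × Fin 9 => δ q.1 q.2.1 ((q.2.2 : ℤ) - 4)) fun q => hδ0 _ _ _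
  refine ⟨min ε (r₃ - r₁), lt_min hε (by linarith), fun i i' k k' x hx hxr hx' hxr' => ⟨?_, ?_⟩⟩
  · refine fun z hz => ?_
    rw [mem_ball] at hz ⊢
    rw [mem_closedBall] at hxr
    have h1 := dist_triangle z (pch 𝒰 i k x) 0
    have h2 := lt_of_lt_of_le hz (min_le_right _ _)
    linarith
  · intro z hz
    set y := D.sh (-k) x with hy
    set d := k' - k with hd
    have hyd : D.sh (-d) y = D.sh (-k') x := by
      rw [hy, ← D.sh_add]
      congr 1
      rw [hd]; ring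
    have hy1 : y ∈ 𝒰.Bc i (1 / 2) := 𝒰.B_sub i _ (mem_pch_source.1 hx)
    have hy2 : D.sh (-k') x ∈ 𝒰.Bc i' (1 / 2) := 𝒰.B_sub i' _ (mem_pch_source.1 hx')
    have hf1 := 𝒰.f_bd' (by norm_num : (1 / 2 : ℝ) ≤ 1) hy1
    have hf2 := 𝒰.f_bd' (by norm_num : (1 / 2 : ℝ) ≤ 1) hy2
    rw [← hyd, D.f_sh] at hf2
    have hd4 : |(d : ℝ)| ≤ 4 := by
      rw [abs_le] at hf1 hf2 ⊢
      push_cast at hf2
      constructor <;> linarith
    have hd4' : |d| ≤ 4 := by exact_mod_cast hd4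
    rw [abs_le] at hd4'
    have hlt : (d + 4).toNat < 9 := by omega
    have hq := hle (i, i', ⟨(d + 4).toNat, hlt⟩)
    have hdd : (((⟨(d + 4).toNat, hlt⟩ : Fin 9) : ℕ) : ℤ) - 4 = d := by
      simp only
      omega
    simp only [hdd] at hq
    have hy0 : y ∈ (pch 𝒰 i 0).source := by
      rw [mem_pch_source, neg_zero, D.sh_zero]
      exact mem_pch_source.1 hx
    rw [pch_zero] at hxr hz
    have h5 := hδ i i' d y hy0 hxr (by
      rw [hyd]
      exact (mem_pch_closedBall (k := k') (by linarith)).1 ⟨hx', hxr'⟩) z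
      (ball_subset_ball ((min_le_left _ _).trans hq) hz)
    have h6 : D.sh (-k') ((pch 𝒰 i k).symm z) = D.sh (-d) ((pch 𝒰 i 0).symm z) := by
      rw [pch_symm_zero, ← D.sh_add]
      congr 1
      rw [hd]; ring
    rw [mem_pch_ball h4, h6]
    exact h5

end leb

/-! ### weights -/

theorem isWt_nonneg {Λ : ℝ} {w : ℤ → ℝ} (hw : IsWt Λ w) : 0 ≤ Λ := by
  by_contra hcon
  push Not at hcon
  have h1 := hw.up 0
  have h2 := hw.down 0
  have h3 := hw.pos 0
  have h4 := hw.pos (0 + 1)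
  have h5 : Real.exp Λ < 1 := Real.exp_lt_one_iff.2 hcon
  nlinarith [mul_lt_mul_of_pos_right h5 h3, mul_lt_mul_of_pos_right h5 h4]

theorem isWt_le_add {Λ : ℝ} {w : ℤ → ℝ} (hw : IsWt Λ w) (k : ℤ) (n : ℕ) :
    w (k + n) ≤ Real.exp (Λ * n) * w k := by
  induction n with
  | zero => simp
  | succ n ih =>
    have h1 := hw.up (k + n)
    have h2 : Real.exp (Λ * ((n + 1 : ℕ) : ℝ)) = Real.exp Λ * Real.exp (Λ * n) := by
      rw [← Real.exp_add]; congr 1; push_cast; ring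
    have h3 : k + ((n + 1 : ℕ) : ℤ) = k + n + 1 := by push_cast; ring
    rw [h3, h2, mul_assoc]
    exact h1.trans (mul_le_mul_of_nonneg_left ih (Real.exp_pos _).le)

theorem isWt_le_sub {Λ : ℝ} {w : ℤ → ℝ} (hw : IsWt Λ w) (k : ℤ) (n : ℕ) :
    w (k - n) ≤ Real.exp (Λ * n) * w k := by
  induction n with
  | zero => simp
  | succ n ih =>
    have h1 := hw.down (k - ((n + 1 : ℕ) : ℤ))
    have h2 : Real.exp (Λ * ((n + 1 : ℕ) : ℝ)) = Real.exp Λ * Real.exp (Λ * n) := by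
      rw [← Real.exp_add]; congr 1; push_cast; ring
    have h3 : k - ((n + 1 : ℕ) : ℤ) + 1 = k - n := by push_cast; ring
    rw [h3] at h1
    rw [h2, mul_assoc]
    exact h1.trans (mul_le_mul_of_nonneg_left ih (Real.exp_pos _).le)

theorem isWt_le_near {Λ : ℝ} {w : ℤ → ℝ} (hw : IsWt Λ w) {j k : ℤ} {n : ℕ} (h : |j - k| ≤ n) :
    w j ≤ Real.exp (Λ * n) * w k := by
  have hΛ := isWt_nonneg hw
  obtain ⟨m, hm⟩ : ∃ m : ℕ, |j - k| = m := ⟨(|j - k|).toNat, by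
    rw [Int.toNat_of_nonneg (abs_nonneg _)]⟩
  have hmn : m ≤ n := by omega
  have h1 : Real.exp (Λ * m) ≤ Real.exp (Λ * n) := Real.exp_le_exp.2
    (mul_le_mul_of_nonneg_left (by exact_mod_cast hmn) hΛ)
  have h2 : w j ≤ Real.exp (Λ * m) * w k := by
    rcases abs_choice (j - k) with h3 | h3
    · have : j = k + m := by omega
      rw [this]
      exact isWt_le_add hw k m
    · have : j = k - m := by omega
      rw [this]
      exact isWt_le_sub hw k m
  exact h2.trans (mul_le_mul_of_nonneg_right h1 (hw.pos k).le)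

/-! ### local bound of a functional -/

variable [IsManifold 𝓘(ℂ, C2) ω M]

theorem n1_eq_zero_of {h : M → Matrix (Fin 2) (Fin 2) ℂ} {κ : ℤ}
    {u : M → Fin 2 → EuclideanSpace ℂ ι} {x : M} (hu : u x = 0) : n1 h κ u x = 0 := by
  simp [n1, nsq1, hu]

/-- the local bound of a functional which is bounded by the weighted `l¹` profile norm -/
theorem bd_of_func [T2Space M] {𝒰 : PCov D} {C K : ℝ} {i : Fin 𝒰.N} {k : ℤ} {L : LB M ι}
    {a : M → Fin 2 → ℂ} {s t : M → EuclideanSpace ℂ ι} (h : DFrame 𝒰 C i k L a s t)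
    (hb : PatchBd D h.patch K) {Λ : ℝ} {w : ℤ → ℝ} (hw : IsWt Λ w) {A : Test1 L.dual 1 →ₗ[ℂ] ℂ}
    {K₀ : ℝ} (hK₀ : 0 ≤ K₀) (hA : ∀ η : Test1 L.dual 1, ‖A η‖ ≤ K₀ *
      ∑' j, w j * D.p1 1 (η : M → Fin 2 → EuclideanSpace ℂ ι) j) :
    h.patch.Bd A (6 * Real.exp (Λ * 3) * K₀ * K * w k) := by
  intro g hg B hB
  have hB0 : 0 ≤ B := (norm_nonneg _).trans (hB 0)
  have hK0 : 0 ≤ K := by linarith [hb.one_le]
  have hη := h.patch.t1F_J1 hg Subset.rfl
  rw [Patch.Lam, H869.Af_eq A hη.mem]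
  have hsub : h.patch.e.symm '' ball (0 : C2) 3 ⊆ h.patch.dom 3 := by
    rintro _ ⟨z, hz, rfl⟩
    exact h.patch.symm_mem_dom le_rfl hz
  have hzero : ∀ x ∉ h.patch.dom 3, h.patch.J1 g x = 0 := fun x hx =>
    image_eq_zero_of_notMem_tsupport fun hx' => hx (hsub (hη.supp hx'))
  have hn1 : ∀ x, n1 D.h 1 (h.patch.J1 g) x ≤ K * B := by
    intro x
    by_cases hx : x ∈ h.patch.dom 3
    · exact (hb.J1_le x hx g).trans (mul_le_mul_of_nonneg_left (hB _) hK0)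
    · rw [n1_eq_zero_of (hzero x hx)]
      positivity
  have hp : ∀ j, D.p1 1 (h.patch.J1 g) j ≤ K * B := fun j =>
    D.prof_le (by positivity) fun x _ => hn1 x
  have hp0 : ∀ j, 0 ≤ D.p1 1 (h.patch.J1 g) j := fun j =>
    D.prof_nonneg (fun x => n1_nonneg D.herm _ _ _) j
  have hpz : ∀ j, j ∉ Finset.Icc (k - 3) (k + 2) → D.p1 1 (h.patch.J1 g) j = 0 := by
    intro j hj
    refine le_antisymm (D.prof_le le_rfl fun x hx => ?_) (hp0 j)
    rw [n1_eq_zero_of]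
    refine hzero x fun hxd => hj ?_
    rw [h.mem_dom le_rfl] at hxd
    have hf := 𝒰.f_bd' (by norm_num : (3 / 6 : ℝ) ≤ 1) (𝒰.B_sub i _ hxd)
    rw [D.f_sh, abs_le] at hf
    push_cast at hf
    obtain ⟨h1, h2⟩ := hx
    rw [Finset.mem_Icc]
    constructor
    · have : (k : ℝ) - 3 ≤ j := by linarith
      exact_mod_cast this
    · have : (j : ℝ) ≤ k + 2 := by linarith
      exact_mod_cast this
  have hsum : ∑' j, w j * D.p1 1 (h.patch.J1 g) j ≤ 6 * (Real.exp (Λ * 3) * w k * (K * B)) := by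
    rw [tsum_eq_sum (s := Finset.Icc (k - 3) (k + 2)) fun j hj => by rw [hpz j hj, mul_zero]]
    have h1 : ∀ j ∈ Finset.Icc (k - 3) (k + 2), w j * D.p1 1 (h.patch.J1 g) j ≤
        Real.exp (Λ * 3) * w k * (K * B) := by
      intro j hj
      rw [Finset.mem_Icc] at hj
      have h2 : w j ≤ Real.exp (Λ * 3) * w k := by
        have := isWt_le_near hw (j := j) (k := k) (n := 3) (by
          rw [abs_le]
          constructor <;> push_cast <;> omega)
        simpa using this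
      exact mul_le_mul h2 (hp j) (hp0 j) (by have := hw.pos k; positivity)
    refine (Finset.sum_le_card_nsmul _ _ _ h1).trans (le_of_eq ?_)
    have h3 : (Finset.Icc (k - 3) (k + 2)).card = 6 := by
      rw [Int.card_Icc]
      omega
    rw [h3, nsmul_eq_mul]
    norm_num
  refine (hA _).trans ((mul_le_mul_of_nonneg_left hsum hK₀).trans (le_of_eq ?_))
  ring

end Vale.Agent.P267.H181
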