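import Vale.Agent.P267.H181.Cov
import Vale.Agent.P267.H378.Met2

/-!
# P267, package XA-FRAMES (helper181), part 6: uniform holomorphic frames

`exists_frames`: for a finite family `Λ` of line bundles there is a periodic cover such that every
holomorphic line bundle `(L, a)` with `L = Λ l` on `B i 1` and `|a|_h ≤ A₀` there has a holomorphic
frame on `B i (5/8)` with `C⁻¹ ≤ |t| ≤ C`, `C` depending only on `A₀`.
-/

set_option linter.unusedSectionVars false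

open Filter Topology Set Metric
open scoped ContDiff Manifold ComplexConjugate Matrix

noncomputable section

namespace Vale.Agent.P267.H181

open FL XT H378

variable {M : Type} [TopologicalSpace M] [ChartedSpace C2 M]
variable {ι : Type} [Fintype ι] [DecidableEq ι]

/-- a holomorphic frame of `(L, a)` on the polydisc `B i (5/8)`, with bound `C` -/
structure FrameOn {D : XTData M} (𝒰 : PCov D) (C : ℝ) (i : Fin 𝒰.N) (L : LB M ι)
    (a : M → Fin 2 → ℂ) (t : M → EuclideanSpace ℂ ι) : Prop where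
  reg : Reg0 ∞ 0 t
  sec : L.Sec t
  cpt : HasCompactSupport t
  supp : tsupport t ⊆ 𝒰.Bc i (3 / 4)
  hol : ∀ x ∈ 𝒰.B i (5 / 8), L.db0 a 0 t x = 0
  lb : ∀ x ∈ 𝒰.B i (5 / 8), C⁻¹ ≤ ‖t x‖
  ub : ∀ x ∈ 𝒰.B i (5 / 8), ‖t x‖ ≤ C

theorem FrameOn.mono {D : XTData M} {𝒰 : PCov D} {C C' : ℝ} {i : Fin 𝒰.N} {L : LB M ι}
    {a : M → Fin 2 → ℂ} {t : M → EuclideanSpace ℂ ι} (h : FrameOn 𝒰 C i L a t) (hC : 0 < C)
    (hCC : C ≤ C') : FrameOn 𝒰 C' i L a t where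
  reg := h.reg
  sec := h.sec
  cpt := h.cpt
  supp := h.supp
  hol := h.hol
  lb x hx := (inv_anti₀ hC hCC).trans (h.lb x hx)
  ub x hx := (h.ub x hx).trans hCC

theorem norm_act_le {P : Matrix ι ι ℂ} (hh : Pᴴ = P) (hP : P * P = P) (v : EuclideanSpace ℂ ι) :
    ‖LB.act P v‖ ≤ ‖v‖ := by
  have h1 : inner ℂ (LB.act P v) (LB.act P v) = inner ℂ v (LB.act P v) := by
    have h2 : ∀ u w : EuclideanSpace ℂ ι, inner ℂ (LB.act P u) w = inner ℂ u (LB.act P w) := by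
      intro u w
      rw [PiLp.inner_apply, PiLp.inner_apply]
      simp only [act_apply, RCLike.inner_apply, map_sum, map_mul, Finset.mul_sum, Finset.sum_mul]
      rw [Finset.sum_comm]
      refine Finset.sum_congr rfl fun j _ => Finset.sum_congr rfl fun k _ => ?_
      have h7 : conj (P k j) = P j k := by
        have := congrFun (congrFun hh j) k
        rw [← this]; rfl
      rw [h7]
      ring
    rw [h2, ← act_mul, hP]
  have h3 : ‖LB.act P v‖ ^ 2 ≤ ‖v‖ * ‖LB.act P v‖ := by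
    have h4 := norm_inner_le_norm (𝕜 := ℂ) v (LB.act P v)
    rw [← h1, inner_self_eq_norm_sq_to_K] at h4
    simpa using h4
  by_contra hcon
  push Not at hcon
  nlinarith [norm_nonneg v, norm_nonneg (LB.act P v)]

variable [IsManifold 𝓘(ℂ, C2) ω M]

/-- the `(0,1)`-form `⟨s, ∂̄s⟩/‖s‖²` of the smooth frame `s = P v` -/
def th (L : LB M ι) (v : EuclideanSpace ℂ ι) : M → Fin 2 → ℂ :=
  coef1 (sv L v) (dbar0 0 (sv L v))

theorem sum_cf_act {P : Matrix ι ι ℂ} (hh : Pᴴ = P) {s : M → EuclideanSpace ℂ ι} {x : M}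
    (hs : LB.act P (s x) = s x) (w : EuclideanSpace ℂ ι) :
    ∑ j, cf s x j * (LB.act P w) j = ∑ j, cf s x j * w j := by
  simp only [act_apply, Finset.mul_sum]
  rw [Finset.sum_comm]
  refine Finset.sum_congr rfl fun k _ => ?_
  have h1 : ∑ j, cf s x j * P j k = cf s x k := by
    have h2 : conj ((LB.act P (s x)) k) = conj (s x k) := by rw [hs]
    rw [act_apply, map_sum] at h2
    unfold cf
    rw [← h2, Finset.sum_mul]
    refine Finset.sum_congr rfl fun j _ => ?_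
    have h7 : conj (P k j) = P j k := by
      have := congrFun (congrFun hh j) k
      rw [← this]; rfl
    rw [map_mul, h7]
    ring
  rw [← h1, Finset.sum_mul]
  refine Finset.sum_congr rfl fun j _ => ?_
  ring

/-- `fv = th + a` -/
theorem fv_eq (L : LB M ι) (a : M → Fin 2 → ℂ) {v : EuclideanSpace ℂ ι} {x : M}
    (h0 : sv L v x ≠ 0) (k : Fin 2) : fv L a v x k = th L v x k + a x k := by
  have hs : LB.act (L.P x) (sv L v x) = sv L v x := sv_sec L v x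
  have h1 : fv L a v x k • sv L v x = (th L v x k + a x k) • sv L v x := by
    rw [← db0_sv L a h0, LB.db0, add_smul]
    congr 1
    have h2 : LB.act (L.P x) (LB.act (L.P x) (dbar0 0 (sv L v) x k)) =
        LB.act (L.P x) (dbar0 0 (sv L v) x k) := by rw [← act_mul, L.idem]
    have h3 := eq_cf (L.herm x) (L.idem x) (L.tr x) hs h0 h2
    rw [sum_cf_act (L.herm x) hs] at h3
    exact h3.symm
  exact smul_left_injective ℂ h0 h1

theorem th_congr {L L' : LB M ι} {v : EuclideanSpace ℂ ι} {x : M}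
    (h : ∀ᶠ y in 𝓝 x, L.P y = L'.P y) : th L v x = th L' v x := by
  have h1 : sv L v =ᶠ[𝓝 x] sv L' v := h.mono fun y hy => by rw [sv, sv, hy]
  funext k
  rw [th, th, coef1, coef1, dbar0_congr h1]
  refine Finset.sum_congr rfl fun j _ => ?_
  rw [cf, cf, h1.self_of_nhds]

theorem at1_th (L : LB M ι) {v : EuclideanSpace ℂ ι} {x : M} (h0 : sv L v x ≠ 0) :
    At1 ∞ 0 (th L v) x :=
  at1_coef1 (at0_sv L v le_rfl x) h0 ((at0_sv L v le_rfl x).dbar (by simp))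

theorem loc1_add_apply {κ : ℤ} {e : Ch M} (a b : M → Fin 2 → ℂ) (z : C2) (i : Fin 2) :
    loc1 κ e (fun y k => a y k + b y k) z i = loc1 κ e a z i + loc1 κ e b z i := by
  simp only [loc1, smul_add, Finset.sum_add_distrib]

/-- good radius: the vectors `v l` give frames of the `Λ l` on the closed polydisc -/
def GoodR {n : ℕ} (Λ : Fin n → LB M ι) (x : M) (r : ℝ) : Prop :=
  ∀ l, ∃ v : EuclideanSpace ℂ ι, ‖v‖ ≤ 1 ∧ ∀ z ∈ closedBall (chartAt C2 x x) r,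
    1 / 2 ≤ ‖sv (Λ l) v ((chartAt C2 x).symm z)‖

theorem continuous_sv (L : LB M ι) (v : EuclideanSpace ℂ ι) : Continuous (sv L v) :=
  (reg0_iff_at.2 fun y => at0_sv L v le_rfl y : Reg0 ∞ 0 (sv L v)).continuous

theorem exists_goodR {n : ℕ} (Λ : Fin n → LB M ι) (x : M) :
    ∃ r₀ > 0, ∀ r, 0 < r → r ≤ r₀ → GoodR Λ x r := by
  have h1 : ∀ l, ∃ v : EuclideanSpace ℂ ι, ‖v‖ ≤ 1 ∧ ∃ r > 0,
      ∀ z ∈ closedBall (chartAt C2 x x) r, 1 / 2 ≤ ‖sv (Λ l) v ((chartAt C2 x).symm z)‖ := by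
    intro l
    obtain ⟨w, hw⟩ := exists_sv_ne_zero (Λ l) x
    have hn : (‖sv (Λ l) w x‖ : ℝ) ≠ 0 := norm_ne_zero_iff.2 hw
    set v : EuclideanSpace ℂ ι := ((‖sv (Λ l) w x‖ : ℝ) : ℂ)⁻¹ • sv (Λ l) w x with hv
    have hv1 : ‖v‖ = 1 := by
      rw [hv, norm_smul, norm_inv, Complex.norm_real, norm_norm, inv_mul_cancel₀ hn]
    have hvx : sv (Λ l) v x = v := by
      rw [hv, sv, act_smul, sv_sec (Λ l) w x]
    have hc : ∀ᶠ y in 𝓝 x, 1 / 2 < ‖sv (Λ l) v y‖ :=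
      (continuous_sv (Λ l) v).norm.continuousAt.eventually (Ioi_mem_nhds (by
        change 1 / 2 < ‖sv (Λ l) v x‖
        rw [hvx, hv1]; norm_num))
    have hc2 := (tendsto_symm_nhds (mem_chart_source C2 x)).eventually hc
    obtain ⟨r, hr, h2⟩ := Metric.nhds_basis_closedBall.mem_iff.1 hc2
    exact ⟨v, hv1.le, r, hr, fun z hz => le_of_lt (h2 hz)⟩
  choose v hv r hr hvr using h1
  obtain ⟨r₀, hr₀, hle⟩ : ∃ r₀ > 0, ∀ l, r₀ ≤ r l := by
    rcases (Finset.univ : Finset (Fin n)).eq_empty_or_nonempty with he | hne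
    · refine ⟨1, one_pos, fun l => ?_⟩
      have := Finset.mem_univ l
      rw [he] at this
      exact absurd this (Finset.notMem_empty l)
    · refine ⟨Finset.univ.inf' hne r, ?_, fun l => Finset.inf'_le _ (Finset.mem_univ l)⟩
      rw [gt_iff_lt, Finset.lt_inf'_iff]
      exact fun l _ => hr l
  exact ⟨r₀, hr₀, fun s _ hs l => ⟨v l, hv l, fun z hz =>
    hvr l z (closedBall_subset_closedBall (hs.trans (hle l)) hz)⟩⟩

/-- frames on one polydisc -/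
theorem exists_frame_one [T2Space M] {D : XTData M} (𝒰 : PCov D) (i : Fin 𝒰.N) (Λ : LB M ι)
    {v : EuclideanSpace ℂ ι} (hv : ‖v‖ ≤ 1) (hvb : ∀ z ∈ closedBall (𝒰.c i) (𝒰.R i),
      1 / 2 ≤ ‖sv Λ v ((𝒰.e i).symm z)‖) (A₀ : ℝ) :
    ∃ C, 0 < C ∧ ∀ (L : LB M ι) (a : M → Fin 2 → ℂ), (∀ x ∈ 𝒰.B i 1, L.P x = Λ.P x) →
      L.IsHol a → (∀ x ∈ 𝒰.B i 1, n1 D.h 0 a x ≤ A₀) → ∃ t, FrameOn 𝒰 C i L a t := by
  have he := 𝒰.e_mem i
  have hR := 𝒰.R_pos i
  have hK : IsCompact (closedBall (𝒰.c i) (𝒰.R i)) := isCompact_closedBall _ _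
  have hsub : closedBall (𝒰.c i) (𝒰.R i) ⊆ (𝒰.e i).target := 𝒰.sub i
  have hB1 : 𝒰.B i 1 = (𝒰.e i).symm '' ball (𝒰.c i) (𝒰.R i) := by rw [PCov.B, one_mul]
  -- bound for `th`
  have hne : ∀ z ∈ closedBall (𝒰.c i) (𝒰.R i), sv Λ v ((𝒰.e i).symm z) ≠ 0 := fun z hz h0 => by
    have := hvb z hz
    rw [h0, norm_zero] at this
    norm_num at this
  have hthc : ContinuousOn (loc1 0 (𝒰.e i) (th Λ v)) (closedBall (𝒰.c i) (𝒰.R i)) := by
    intro z hz
    have h1 := (at1_th Λ (hne z hz)).chart he ((𝒰.e i).map_target (hsub hz))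
    rw [(𝒰.e i).right_inv (hsub hz)] at h1
    exact h1.continuousAt.continuousWithinAt
  obtain ⟨K, hKb⟩ := hK.exists_bound_of_continuousOn hthc
  obtain ⟨C₁, hC₁, hcmp⟩ := n1_compare D.herm he hsub hK 0
  obtain ⟨C₂, hC₂, hpot⟩ := exists_potential (r := 3 / 4 * 𝒰.R i) (R := 𝒰.R i)
    (by linarith) (by linarith)
  set A := |K| + C₁ * |A₀| with hA
  have hA0 : 0 ≤ A := by positivity
  refine ⟨2 * Real.exp (C₂ * A), by positivity, fun L a hLP ha han => ?_⟩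
  -- the bundle near points of the polydisc
  have hev : ∀ z ∈ ball (𝒰.c i) (𝒰.R i), ∀ᶠ y in 𝓝 ((𝒰.e i).symm z), L.P y = Λ.P y := by
    intro z hz
    have hopen := 𝒰.isOpen_B i (t := 1) le_rfl
    have hmem : (𝒰.e i).symm z ∈ 𝒰.B i 1 := by
      rw [hB1]
      exact ⟨z, hz, rfl⟩
    filter_upwards [hopen.mem_nhds hmem] with y hy
    exact hLP y hy
  have hsv : ∀ z ∈ ball (𝒰.c i) (𝒰.R i), sv L v ((𝒰.e i).symm z) = sv Λ v ((𝒰.e i).symm z) := by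
    intro z hz
    rw [sv, sv, (hev z hz).self_of_nhds]
  have hneL : ∀ z ∈ ball (𝒰.c i) (𝒰.R i), sv L v ((𝒰.e i).symm z) ≠ 0 := fun z hz => by
    rw [hsv z hz]
    exact hne z (ball_subset_closedBall hz)
  have hneL' : ∀ z ∈ ball (𝒰.c i) (𝒰.R i), ∀ᶠ y in 𝓝 ((𝒰.e i).symm z), sv L v y ≠ 0 :=
    fun z hz => (continuous_sv L v).continuousAt.eventually_ne (hneL z hz)
  have hbd : ∀ z ∈ ball (𝒰.c i) (𝒰.R i), ∀ k, ‖loc1 0 (𝒰.e i) (fv L a v) z k‖ ≤ A := by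
    intro z hz k
    have h1 : loc1 0 (𝒰.e i) (fv L a v) z k =
        loc1 0 (𝒰.e i) (th Λ v) z k + loc1 0 (𝒰.e i) a z k := by
      rw [← loc1_add_apply]
      simp only [loc1, fv_eq L a (hneL z hz), th_congr (hev z hz)]
    rw [h1]
    refine (norm_add_le _ _).trans (add_le_add ?_ ?_)
    · exact ((norm_le_pi_norm _ k).trans (hKb z (ball_subset_closedBall hz))).trans (le_abs_self K)
    · refine (norm_le_pi_norm _ k).trans ((hcmp z (ball_subset_closedBall hz) a).1.trans ?_)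
      refine mul_le_mul_of_nonneg_left ?_ hC₁.le
      refine (han _ ?_).trans (le_abs_self A₀)
      rw [hB1]
      exact ⟨z, hz, rfl⟩
  obtain ⟨φ, hφ, hφd, hφb⟩ := hpot (κ := 0) (e := 𝒰.e i) (c := 𝒰.c i) (α := fv L a v) he
    (ball_subset_closedBall.trans hsub) hA0 (fun z hz => at1_fv ha (hneL z hz))
    (fun z hz => dbar1_fv ha (hneL' z hz)) hbd
  have h2 : 0 < 5 / 8 * 𝒰.R i := by linarith
  have h3 : 5 / 8 * 𝒰.R i < 3 / 4 * 𝒰.R i := by linarith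
  let χ := bmp h2 h3
  have hin : χ.rIn = 5 / 8 * 𝒰.R i := rfl
  have hout : χ.rOut = 3 / 4 * 𝒰.R i := rfl
  have hb : closedBall (𝒰.c i) χ.rOut ⊆ (𝒰.e i).target := 𝒰.sub' i (by norm_num)
  have hin1 : ball (𝒰.c i) χ.rIn ⊆ ball (𝒰.c i) (𝒰.R i) :=
    ball_subset_ball (by rw [hin]; linarith)
  have hin2 : ball (𝒰.c i) χ.rIn ⊆ ball (𝒰.c i) (3 / 4 * 𝒰.R i) :=
    ball_subset_ball (by rw [hin]; linarith)
  obtain ⟨t, ht, htsec, htc, htsupp, hteq, htd⟩ := exists_frame_of_potential (L := L) (a := a) he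
    (c := 𝒰.c i) (χ := χ) hb (s := sv L v) (reg0_iff_at.2 fun y => at0_sv L v le_rfl y)
    (sv_sec L v) (α := fv L a v) hφ (fun z hz k => db0_sv L a (hneL z (hin1 hz)) k)
    (fun z hz i => hφd z (hin2 hz) i)
  have hre : ∀ z ∈ ball (𝒰.c i) χ.rIn, |(φ z).re| ≤ C₂ * A := fun z hz =>
    (Complex.abs_re_le_norm _).trans (hφb z (hin2 hz))
  have hnorm : ∀ z ∈ ball (𝒰.c i) χ.rIn, ‖t ((𝒰.e i).symm z)‖ =
      Real.exp (-(φ z).re) * ‖sv L v ((𝒰.e i).symm z)‖ := by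
    intro z hz
    rw [hteq z hz, norm_smul, Complex.norm_exp, Complex.neg_re]
  refine ⟨t, ht, htsec, htc, htsupp, ?_, ?_, ?_⟩
  · rintro _ ⟨z, hz, rfl⟩
    exact htd z hz
  · rintro _ ⟨z, hz, rfl⟩
    rw [hnorm z hz, hsv z (hin1 hz)]
    have h4 := hvb z (ball_subset_closedBall (hin1 hz))
    have h5 : Real.exp (-(C₂ * A)) ≤ Real.exp (-(φ z).re) :=
      Real.exp_le_exp.2 (neg_le_neg ((le_abs_self _).trans (hre z hz)))
    calc (2 * Real.exp (C₂ * A))⁻¹ = Real.exp (-(C₂ * A)) * (1 / 2) := by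
          rw [mul_inv, Real.exp_neg]; ring
      _ ≤ Real.exp (-(φ z).re) * ‖sv Λ v ((𝒰.e i).symm z)‖ := by gcongr
  · rintro _ ⟨z, hz, rfl⟩
    rw [hnorm z hz]
    have h5 : Real.exp (-(φ z).re) ≤ Real.exp (C₂ * A) :=
      Real.exp_le_exp.2 ((neg_le_abs _).trans (hre z hz))
    have h6 : ‖sv L v ((𝒰.e i).symm z)‖ ≤ 1 :=
      (norm_act_le (L.herm _) (L.idem _) v).trans hv
    calc Real.exp (-(φ z).re) * ‖sv L v ((𝒰.e i).symm z)‖ ≤ Real.exp (C₂ * A) * 1 := by gcongr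
      _ ≤ 2 * Real.exp (C₂ * A) := by nlinarith [Real.exp_pos (C₂ * A)]

/-- **Uniform holomorphic frames** for a finite family of local models. -/
theorem exists_frames [T2Space M] (D : XTData M) {n : ℕ} (Λ : Fin n → LB M ι) :
    ∃ 𝒰 : PCov D, ∀ A₀ : ℝ, ∃ C, 1 ≤ C ∧ ∀ (i : Fin 𝒰.N) (L : LB M ι) (a : M → Fin 2 → ℂ),
      (∃ l, ∀ x ∈ 𝒰.B i 1, L.P x = (Λ l).P x) → L.IsHol a → (∀ x ∈ 𝒰.B i 1, n1 D.h 0 a x ≤ A₀) →
      ∃ t, FrameOn 𝒰 C i L a t := by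
  obtain ⟨𝒰, h𝒰⟩ := exists_pcov D (G := GoodR Λ) (exists_goodR Λ)
  refine ⟨𝒰, fun A₀ => ?_⟩
  have h1 : ∀ (i : Fin 𝒰.N) (l : Fin n), ∃ C, 0 < C ∧ ∀ (L : LB M ι) (a : M → Fin 2 → ℂ),
      (∀ x ∈ 𝒰.B i 1, L.P x = (Λ l).P x) → L.IsHol a → (∀ x ∈ 𝒰.B i 1, n1 D.h 0 a x ≤ A₀) →
      ∃ t, FrameOn 𝒰 C i L a t := by
    intro i l
    obtain ⟨v, hv, hvb⟩ := h𝒰 i l
    exact exists_frame_one 𝒰 i (Λ l) hv hvb A₀
  choose C hC0 hC using h1
  set S : ℝ := 1 + ∑ i, ∑ l, C i l with hS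
  have hle : ∀ i l, C i l ≤ S := by
    intro i l
    have h2 : C i l ≤ ∑ l, C i l :=
      Finset.single_le_sum (f := fun l => C i l) (fun l _ => (hC0 i l).le) (Finset.mem_univ l)
    have h3 : ∑ l, C i l ≤ ∑ i, ∑ l, C i l :=
      Finset.single_le_sum (f := fun i => ∑ l, C i l)
        (fun i _ => Finset.sum_nonneg fun l _ => (hC0 i l).le) (Finset.mem_univ i)
    linarith
  have hS1 : 1 ≤ S := by
    have : 0 ≤ ∑ i, ∑ l, C i l :=
      Finset.sum_nonneg fun i _ => Finset.sum_nonneg fun l _ => (hC0 i l).le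
    linarith
  refine ⟨S, hS1, ?_⟩
  rintro i L a ⟨l, hl⟩ ha han
  obtain ⟨t, ht⟩ := hC i l L a hl ha han
  exact ⟨t, ht.mono (hC0 i l) (hle i l)⟩

end Vale.Agent.P267.H181
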