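import Vale.Agent.P267.H181.UFrm
import Vale.Agent.P267.H877.Dual

/-!
# P267, package XA-FRAMES (helper181), part 7: dual frames; frames for `EndTriv` and `PerSeq`

`exists_dframes`: one periodic cover and one constant `C` such that `(L, a)` and all `(L_m, a_m)`,
`m ≥ m₁`, have holomorphic frames and dual frames on all translates `γ^k B i (1/2)`, bounded by `C`;
for `(L_m, a_m)` the frames are periodic.
-/

set_option linter.unusedSectionVars false

open Filter Topology Set Metric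
open scoped ContDiff Manifold ComplexConjugate Matrix

noncomputable section

namespace Vale.Agent.P267.H181

open FL XT H378

variable {M : Type} [TopologicalSpace M] [ChartedSpace C2 M]
variable {ι : Type} [Fintype ι] [DecidableEq ι]

section dual

variable {X : Type} [TopologicalSpace X] [ChartedSpace C2 X] [IsManifold 𝓘(ℂ, C2) ω X]
variable {L : LB X ι} {a : X → Fin 2 → ℂ}

/-- the dual frame of a frame of a line bundle -/
def dualv (s : X → EuclideanSpace ℂ ι) (y : X) : EuclideanSpace ℂ ι :=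
  WithLp.toLp 2 fun j => cf s y j

theorem dualv_apply (s : X → EuclideanSpace ℂ ι) (y : X) (j : ι) : dualv s y j = cf s y j := rfl

theorem at0_dualv {n : WithTop ℕ∞} {s : X → EuclideanSpace ℂ ι} {x : X} (hs : At0 n 0 s x)
    (h0 : s x ≠ 0) : At0 n 0 (dualv s) x :=
  at0_of_comp fun j => at0_cf hs h0 j

theorem sum_mul_dualv {s : X → EuclideanSpace ℂ ι} {y : X} (h0 : s y ≠ 0) :
    ∑ j, s y j * dualv s y j = 1 := by
  have hn : ((‖s y‖ ^ 2 : ℝ) : ℂ) ≠ 0 := by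
    have : ‖s y‖ ^ 2 ≠ 0 := pow_ne_zero 2 (norm_ne_zero_iff.2 h0)
    exact_mod_cast this
  have h1 : ∑ j, s y j * dualv s y j = (∑ j, s y j * conj (s y j)) * ((‖s y‖ ^ 2 : ℝ) : ℂ)⁻¹ := by
    rw [Finset.sum_mul]
    refine Finset.sum_congr rfl fun j _ => ?_
    rw [dualv_apply, cf, mul_assoc]
  have h2 : ∑ j, s y j * conj (s y j) = ((‖s y‖ ^ 2 : ℝ) : ℂ) := by
    rw [EuclideanSpace.norm_sq_eq]
    push_cast
    exact Finset.sum_congr rfl fun j _ => Complex.mul_conj' _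
  rw [h1, h2, mul_inv_cancel₀ hn]

theorem norm_dualv {s : X → EuclideanSpace ℂ ι} {y : X} (h0 : s y ≠ 0) :
    ‖dualv s y‖ = ‖s y‖⁻¹ := by
  have hn : ‖s y‖ ≠ 0 := norm_ne_zero_iff.2 h0
  have h1 : ‖dualv s y‖ ^ 2 = (‖s y‖⁻¹) ^ 2 := by
    rw [EuclideanSpace.norm_sq_eq]
    have h2 : ∀ j, ‖dualv s y j‖ ^ 2 = ‖s y j‖ ^ 2 * ((‖s y‖ ^ 2)⁻¹) ^ 2 := by
      intro j
      rw [dualv_apply, cf, norm_mul, norm_inv, RCLike.norm_conj, mul_pow, Complex.norm_real,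
        norm_pow, norm_norm]
    rw [Finset.sum_congr rfl fun j _ => h2 j, ← Finset.sum_mul, ← EuclideanSpace.norm_sq_eq]
    field_simp
  exact (pow_left_inj₀ (norm_nonneg _) (by positivity) two_ne_zero).1 h1

theorem act_transpose_cf {P : Matrix ι ι ℂ} (hh : Pᴴ = P) {s : X → EuclideanSpace ℂ ι} {x : X}
    (hs : LB.act P (s x) = s x) : LB.act Pᵀ (dualv s x) = dualv s x := by
  ext k
  have h2 : conj ((LB.act P (s x)) k) = conj (s x k) := by rw [hs]
  rw [act_apply, map_sum] at h2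
  rw [act_apply, dualv_apply, cf, ← h2, Finset.sum_mul]
  refine Finset.sum_congr rfl fun j _ => ?_
  have h7 : conj (P k j) = P j k := by
    have := congrFun (congrFun hh j) k
    rw [← this]; rfl
  rw [dualv_apply, cf, map_mul, h7, Matrix.transpose_apply]
  ring

/-- the dual frame of a holomorphic frame is holomorphic -/
theorem db0_dualv {s : X → EuclideanSpace ℂ ι} {x : X} (hs : At0 1 0 s x)
    (hsec : LB.act (L.P x) (s x) = s x) (h0 : s x ≠ 0) (hd : L.db0 a 0 s x = 0) :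
    L.dual.db0 (fun x i => -a x i) 0 (dualv s) x = 0 := by
  have ht : At0 1 0 (dualv s) x := at0_dualv hs h0
  have hne : ∀ᶠ y in 𝓝 x, s y ≠ 0 := hs.continuousAt.eventually_ne h0
  have hone : (fun y => ∑ j, s y j * dualv s y j) =ᶠ[𝓝 x] fun _ => (1 : ℂ) :=
    hne.mono fun y hy => sum_mul_dualv hy
  funext k
  have h1 : ∑ j, (dbar0 0 s x k j * dualv s x j + s x j * dbar0 0 (dualv s) x k j) = 0 := by
    have h2 := congrFun (dbar0_congr (κ := 0) hone) k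
    rw [FL.dbar0_const, dbar0_sum fun j _ => (at0_comp hs j).mul (at0_comp ht j),
      Finset.sum_apply] at h2
    rw [Pi.zero_apply] at h2
    rw [← h2]
    refine Finset.sum_congr rfl fun j _ => ?_
    rw [dbar0_mul (at0_comp hs j) (at0_comp ht j), dbar0_comp hs, dbar0_comp ht]
  -- pairing of `P ∂̄ s` with the dual frame
  have h2 : ∑ j, dbar0 0 s x k j * dualv s x j = -a x k := by
    have h3 : LB.act (L.P x) (dbar0 0 s x k) = (-a x k) • s x := by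
      have := congrFun hd k
      rw [LB.db0] at this
      rw [neg_smul]
      exact eq_neg_of_add_eq_zero_left this
    have h4 : ∑ j, cf s x j * (LB.act (L.P x) (dbar0 0 s x k)) j =
        ∑ j, cf s x j * dbar0 0 s x k j := sum_cf_act (L.herm x) hsec _
    have h5 : ∑ j, cf s x j * ((-a x k) • s x) j = -a x k := by
      have h6 := sum_mul_dualv h0
      have h7 : ∀ j, cf s x j * ((-a x k) • s x) j = -a x k * (s x j * dualv s x j) := by
        intro j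
        rw [dualv_apply, PiLp.smul_apply, smul_eq_mul]
        ring
      rw [Finset.sum_congr rfl fun j _ => h7 j, ← Finset.mul_sum, h6, mul_one]
    rw [h3, h5] at h4
    rw [h4]
    exact Finset.sum_congr rfl fun j _ => mul_comm _ _
  have h3 : ∑ j, s x j * dbar0 0 (dualv s) x k j = a x k := by
    rw [Finset.sum_add_distrib, h2] at h1
    linear_combination h1
  -- `Pᵀ ∂̄ t = ⟨s, ∂̄ t⟩ t`
  have h4 : LB.act (L.dual.P x) (dbar0 0 (dualv s) x k) = a x k • dualv s x := by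
    have hherm : (L.dual.P x)ᴴ = L.dual.P x := L.dual.herm x
    have hsecd : LB.act (L.dual.P x) (dualv s x) = dualv s x := act_transpose_cf (L.herm x) hsec
    have h0d : dualv s x ≠ 0 := by
      intro h
      have := sum_mul_dualv h0
      rw [h] at this
      simp at this
    have h5 : LB.act (L.dual.P x) (LB.act (L.dual.P x) (dbar0 0 (dualv s) x k)) =
        LB.act (L.dual.P x) (dbar0 0 (dualv s) x k) := by rw [← act_mul, L.dual.idem]
    have h6 := eq_cf (s := dualv s) hherm (L.dual.idem x) (L.dual.tr x) hsecd h0d h5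
    rw [sum_cf_act hherm hsecd] at h6
    rw [← h6]
    congr 1
    rw [← h3]
    refine Finset.sum_congr rfl fun j _ => ?_
    congr 1
    -- `cf (dualv s) = s`
    rw [cf, norm_dualv h0, dualv_apply, cf]
    have hn : (‖s x‖ : ℂ) ≠ 0 := by exact_mod_cast norm_ne_zero_iff.2 h0
    simp only [map_mul, Complex.conj_conj, map_inv₀, Complex.conj_ofReal]
    push_cast
    field_simp
  change LB.act (L.dual.P x) (dbar0 0 (dualv s) x k) + (-a x k) • dualv s x = 0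
  rw [h4, neg_smul, add_neg_cancel]

end dual

variable [IsManifold 𝓘(ℂ, C2) ω M]

/-- a holomorphic frame `s` of `(L, a)` and its dual frame `t` of `(L.dual, -a)` on
`sh k '' B i (1/2)`, bounded by `C` -/
structure DFrame {D : XTData M} (𝒰 : PCov D) (C : ℝ) (i : Fin 𝒰.N) (k : ℤ) (L : LB M ι)
    (a : M → Fin 2 → ℂ) (s t : M → EuclideanSpace ℂ ι) : Prop where
  reg : Reg0 ∞ 0 s
  reg' : Reg0 ∞ 0 t
  sec : L.Sec s
  sec' : L.dual.Sec t
  cpt : HasCompactSupport s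
  cpt' : HasCompactSupport t
  supp : ∀ x ∈ tsupport s, D.sh (-k) x ∈ 𝒰.Bc i (3 / 4)
  supp' : ∀ x ∈ tsupport t, D.sh (-k) x ∈ 𝒰.Bc i (3 / 4)
  hol : ∀ x, D.sh (-k) x ∈ 𝒰.B i (1 / 2) → L.db0 a 0 s x = 0
  hol' : ∀ x, D.sh (-k) x ∈ 𝒰.B i (1 / 2) → L.dual.db0 (fun x i => -a x i) 0 t x = 0
  one : ∀ x, D.sh (-k) x ∈ 𝒰.B i (1 / 2) → ∑ j, s x j * t x j = 1
  lb : ∀ x, D.sh (-k) x ∈ 𝒰.B i (1 / 2) → C⁻¹ ≤ ‖s x‖
  ub : ∀ x, D.sh (-k) x ∈ 𝒰.B i (1 / 2) → ‖s x‖ ≤ C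
  lb' : ∀ x, D.sh (-k) x ∈ 𝒰.B i (1 / 2) → C⁻¹ ≤ ‖t x‖
  ub' : ∀ x, D.sh (-k) x ∈ 𝒰.B i (1 / 2) → ‖t x‖ ≤ C

theorem lb_ext {L L' : LB M ι} (h : L.P = L'.P) : L = L' := by
  cases L; cases L'
  simp only at h
  subst h
  rfl

section

variable {D : XTData M} {𝒰 : PCov D}

theorem shL_shL_neg (k : ℤ) (L : LB M ι) : D.shL (-k) (D.shL k L) = L :=
  lb_ext (by funext x; simp)

theorem shL_dual (k : ℤ) (L : LB M ι) : (D.shL k L).dual = D.shL k L.dual := rfl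

/-- translation of holomorphic sections -/
theorem db0_sh {k : ℤ} {L : LB M ι} {a : M → Fin 2 → ℂ} {s : M → EuclideanSpace ℂ ι} {x : M}
    (h : (D.shL k L).db0 (fun y => a (D.sh k y)) 0 s (D.sh (-k) x) = 0) :
    L.db0 a 0 (fun y => s (D.sh (-k) y)) x = 0 := by
  have h1 := (D.chartMap_sh k).lb_db0 L a 0 (fun y => s (D.sh (-k) y)) (D.sh (-k) x)
  simp only [D.sh_neg_sh, D.sh_sh_neg] at h1
  rw [← h1]
  exact h

theorem sec_sh {k : ℤ} {L : LB M ι} {s : M → EuclideanSpace ℂ ι} (h : (D.shL k L).Sec s) :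
    L.Sec fun y => s (D.sh (-k) y) := by
  intro x
  have := h (D.sh (-k) x)
  rwa [D.shL_P, D.sh_sh_neg] at this

theorem tsupport_sh {s : M → EuclideanSpace ℂ ι} {k : ℤ} {x : M}
    (hx : x ∈ tsupport fun y => s (D.sh (-k) y)) : D.sh (-k) x ∈ tsupport s := by
  have h1 : tsupport (fun y => s (D.sh (-k) y)) ⊆ D.sh (-k) ⁻¹' tsupport s := by
    refine closure_minimal ?_ ((isClosed_tsupport s).preimage (D.continuous_sh _))
    intro y hy
    exact subset_tsupport s hy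
  exact h1 hx

theorem compact_sh {s : M → EuclideanSpace ℂ ι} (hs : HasCompactSupport s) (k : ℤ) :
    HasCompactSupport fun y => s (D.sh (-k) y) :=
  hs.comp_homeomorph (D.γ ^ (-k))

theorem DFrame.sh {C : ℝ} {i : Fin 𝒰.N} {k : ℤ} {L : LB M ι} {a : M → Fin 2 → ℂ}
    {s t : M → EuclideanSpace ℂ ι}
    (h : DFrame 𝒰 C i 0 (D.shL k L) (fun y => a (D.sh k y)) s t) :
    DFrame 𝒰 C i k L a (fun y => s (D.sh (-k) y)) (fun y => t (D.sh (-k) y)) where
  reg := (D.chartMap_sh (-k)).reg0_comp h.reg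
  reg' := (D.chartMap_sh (-k)).reg0_comp h.reg'
  sec := sec_sh h.sec
  sec' := sec_sh (L := L.dual) h.sec'
  cpt := compact_sh h.cpt k
  cpt' := compact_sh h.cpt' k
  supp x hx := by simpa using h.supp _ (tsupport_sh hx)
  supp' x hx := by simpa using h.supp' _ (tsupport_sh hx)
  hol x hx := db0_sh (h.hol _ (by simpa using hx))
  hol' x hx := db0_sh (L := L.dual) (a := fun x i => -a x i) (h.hol' _ (by simpa using hx))
  one x hx := h.one _ (by simpa using hx)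
  lb x hx := h.lb _ (by simpa using hx)
  ub x hx := h.ub _ (by simpa using hx)
  lb' x hx := h.lb' _ (by simpa using hx)
  ub' x hx := h.ub' _ (by simpa using hx)

/-- bump function, `1` on `B i (1/2)`, supported in `Bc i (9/16)` -/
def bmpD (𝒰 : PCov D) (i : Fin 𝒰.N) : M → ℂ :=
  ext0 0 (𝒰.e i) fun z => cut (bmp (a := 1 / 2 * 𝒰.R i) (b := 9 / 16 * 𝒰.R i)
    (by linarith [𝒰.R_pos i]) (by linarith [𝒰.R_pos i])) (z - 𝒰.c i)

theorem reg0_bmpD [T2Space M] (i : Fin 𝒰.N) : Reg0 ∞ 0 (bmpD 𝒰 i) :=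
  reg0_ext0 (K := closedBall (𝒰.c i) (9 / 16 * 𝒰.R i)) (𝒰.e_mem i) (isCompact_closedBall _ _)
    (𝒰.sub' i (by norm_num)) (fun _ hz => cut_sub_eq_zero hz)
    fun z _ => ((cut_contDiff _).comp
      (by fun_prop : ContDiff ℝ ∞ fun z : C2 => z - 𝒰.c i)).contDiffAt

theorem bmpD_eq_one {i : Fin 𝒰.N} {x : M} (hx : x ∈ 𝒰.B i (1 / 2)) : bmpD 𝒰 i x = 1 := by
  obtain ⟨z, hz, rfl⟩ := hx
  have hz' : z ∈ (𝒰.e i).target := 𝒰.ball_sub i (by norm_num) hz
  rw [bmpD, ext0_source_zero ((𝒰.e i).map_target hz'), (𝒰.e i).right_inv hz']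
  exact cut_sub_eq_one (ball_subset_closedBall hz)

theorem bmpD_eq_zero {i : Fin 𝒰.N} {x : M} (hx : x ∉ 𝒰.Bc i (9 / 16)) : bmpD 𝒰 i x = 0 := by
  by_cases h : x ∈ (𝒰.e i).source
  · rw [bmpD, ext0_source_zero h]
    refine cut_sub_eq_zero fun hz => hx ?_
    exact ⟨_, hz, (𝒰.e i).left_inv h⟩
  · rw [bmpD, ext0_not_source h]

theorem isClosed_Bc [T2Space M] (i : Fin 𝒰.N) {t : ℝ} (ht : t ≤ 1) : IsClosed (𝒰.Bc i t) :=
  (𝒰.isCompact_Bc i ht).isClosed

/-- frame and dual frame on `B i (1/2)` -/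
theorem FrameOn.dframe [T2Space M] {C : ℝ} (hC : 0 < C) {i : Fin 𝒰.N} {L : LB M ι}
    {a : M → Fin 2 → ℂ} {s : M → EuclideanSpace ℂ ι} (h : FrameOn 𝒰 C i L a s) :
    DFrame 𝒰 C i 0 L a s (fun x => bmpD 𝒰 i x • dualv s x) := by
  have hC' : 0 < C⁻¹ := inv_pos.2 hC
  have hne : ∀ x ∈ 𝒰.B i (5 / 8), s x ≠ 0 := fun x hx h0 => by
    have := h.lb x hx
    rw [h0, norm_zero] at this
    linarith
  have hsub : 𝒰.B i (1 / 2) ⊆ 𝒰.B i (5 / 8) := 𝒰.B_mono i (by norm_num)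
  have hsub' : 𝒰.Bc i (9 / 16) ⊆ 𝒰.B i (5 / 8) := 𝒰.Bc_sub_B i (by norm_num)
  have hcl : IsClosed (𝒰.Bc i (9 / 16)) := isClosed_Bc i (by norm_num)
  have hsupp : tsupport (fun x => bmpD 𝒰 i x • dualv s x) ⊆ 𝒰.Bc i (9 / 16) := by
    refine closure_minimal (fun y hy => ?_) hcl
    by_contra hcon
    exact hy (by simp only [bmpD_eq_zero hcon, zero_smul])
  have ht1 : ∀ x ∈ 𝒰.B i (1 / 2), ∀ᶠ y in 𝓝 x, bmpD 𝒰 i y • dualv s y = dualv s y := by
    intro x hx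
    filter_upwards [(𝒰.isOpen_B i (t := 1 / 2) (by norm_num)).mem_nhds hx] with y hy
    rw [bmpD_eq_one hy, one_smul]
  have hreg : Reg0 ∞ 0 (fun x => bmpD 𝒰 i x • dualv s x) := by
    rw [reg0_iff_at]
    intro x
    by_cases hx : x ∈ 𝒰.Bc i (9 / 16)
    · exact ((reg0_bmpD i).at x).smul (at0_dualv (h.reg.at x) (hne x (hsub' hx)))
    · refine (at0_zero (n := ∞) (κ := 0) (V := EuclideanSpace ℂ ι) (x := x)).congr ?_
      filter_upwards [hcl.isOpen_compl.mem_nhds hx] with y hy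
      rw [bmpD_eq_zero hy, zero_smul]
  refine ⟨h.reg, hreg, h.sec, ?_, h.cpt, ?_, ?_, ?_, ?_, ?_, ?_, ?_, ?_, ?_, ?_⟩
  · intro x
    rw [act_smul, show LB.act (L.dual.P x) (dualv s x) = dualv s x from
      act_transpose_cf (L.herm x) (h.sec x)]
  · exact HasCompactSupport.of_support_subset_isCompact (𝒰.isCompact_Bc i (t := 9 / 16)
      (by norm_num)) ((subset_tsupport _).trans hsupp)
  · intro x hx
    simpa using h.supp hx
  · intro x hx
    have := 𝒰.Bc_mono i (s := 9 / 16) (t := 3 / 4) (by norm_num) (hsupp hx)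
    simpa using this
  · intro x hx
    exact h.hol x (hsub (by simpa using hx))
  · intro x hx
    have hx' : x ∈ 𝒰.B i (1 / 2) := by simpa using hx
    rw [db0_congr (ht1 x hx')]
    exact db0_dualv ((h.reg.at x).of_le (by simp)) (h.sec x) (hne x (hsub hx')) (h.hol x (hsub hx'))
  · intro x hx
    have hx' : x ∈ 𝒰.B i (1 / 2) := by simpa using hx
    rw [(ht1 x hx').self_of_nhds]
    exact sum_mul_dualv (hne x (hsub hx'))
  · intro x hx
    exact h.lb x (hsub (by simpa using hx))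
  · intro x hx
    exact h.ub x (hsub (by simpa using hx))
  · intro x hx
    have hx' : x ∈ 𝒰.B i (1 / 2) := by simpa using hx
    rw [(ht1 x hx').self_of_nhds, norm_dualv (hne x (hsub hx'))]
    exact inv_anti₀ (norm_pos_iff.2 (hne x (hsub hx'))) (h.ub x (hsub hx'))
  · intro x hx
    have hx' : x ∈ 𝒰.B i (1 / 2) := by simpa using hx
    rw [(ht1 x hx').self_of_nhds, norm_dualv (hne x (hsub hx'))]
    exact inv_le_of_inv_le₀ hC (h.lb x (hsub hx'))

/-! ### canonical choice of frames, periodicity -/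

open Classical in
/-- a canonical choice -/
def frs (𝒰 : PCov D) (C : ℝ) (i : Fin 𝒰.N) (L : LB M ι) (a : M → Fin 2 → ℂ) :
    M → EuclideanSpace ℂ ι :=
  if h : ∃ t, FrameOn 𝒰 C i L a t then h.choose else 0

theorem frs_spec {C : ℝ} {i : Fin 𝒰.N} {L : LB M ι} {a : M → Fin 2 → ℂ}
    (h : ∃ t, FrameOn 𝒰 C i L a t) : FrameOn 𝒰 C i L a (frs 𝒰 C i L a) := by
  rw [frs, dif_pos h]
  exact h.choose_spec

/-- the frames -/
def sFr (𝒰 : PCov D) (C : ℝ) (L : LB M ι) (a : M → Fin 2 → ℂ) (i : Fin 𝒰.N) (k : ℤ) (x : M) :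
    EuclideanSpace ℂ ι :=
  frs 𝒰 C i (D.shL k L) (fun y => a (D.sh k y)) (D.sh (-k) x)

/-- the dual frames -/
def tFr (𝒰 : PCov D) (C : ℝ) (L : LB M ι) (a : M → Fin 2 → ℂ) (i : Fin 𝒰.N) (k : ℤ) (x : M) :
    EuclideanSpace ℂ ι :=
  (fun x => bmpD 𝒰 i x • dualv (frs 𝒰 C i (D.shL k L) (fun y => a (D.sh k y))) x) (D.sh (-k) x)

theorem dframe_of [T2Space M] {C : ℝ} (hC : 0 < C) {i : Fin 𝒰.N} {k : ℤ} {L : LB M ι}
    {a : M → Fin 2 → ℂ} (h : ∃ t, FrameOn 𝒰 C i (D.shL k L) (fun y => a (D.sh k y)) t) :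
    DFrame 𝒰 C i k L a (sFr 𝒰 C L a i k) (tFr 𝒰 C L a i k) :=
  ((frs_spec h).dframe hC).sh

theorem shL_per {m : ℤ} {L : LB M ι} (hL : ∀ x, L.P (D.sh m x) = L.P x) (k : ℤ) :
    D.shL (k + m) L = D.shL k L :=
  lb_ext (by
    funext x
    rw [D.shL_P, D.shL_P, add_comm, D.sh_add, hL])

theorem sFr_per {m : ℤ} {C : ℝ} {L : LB M ι} {a : M → Fin 2 → ℂ}
    (hL : ∀ x, L.P (D.sh m x) = L.P x) (ha : ∀ x, a (D.sh m x) = a x) (i : Fin 𝒰.N) (k : ℤ)
    (x : M) : sFr 𝒰 C L a i (k + m) (D.sh m x) = sFr 𝒰 C L a i k x := by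
  have h1 : (fun y => a (D.sh (k + m) y)) = fun y => a (D.sh k y) := by
    funext y
    rw [add_comm, D.sh_add, ha]
  rw [sFr, sFr, shL_per hL, h1, ← D.sh_add]
  congr 2
  ring

theorem tFr_per {m : ℤ} {C : ℝ} {L : LB M ι} {a : M → Fin 2 → ℂ}
    (hL : ∀ x, L.P (D.sh m x) = L.P x) (ha : ∀ x, a (D.sh m x) = a x) (i : Fin 𝒰.N) (k : ℤ)
    (x : M) : tFr 𝒰 C L a i (k + m) (D.sh m x) = tFr 𝒰 C L a i k x := by
  have h1 : (fun y => a (D.sh (k + m) y)) = fun y => a (D.sh k y) := by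
    funext y
    rw [add_comm, D.sh_add, ha]
  rw [tFr, tFr, shL_per hL, h1, ← D.sh_add]
  congr 2
  ring

/-! ### `EndTriv` and `PerSeq` -/

/-- the local models of `L` -/
def models (D : XTData M) (L : LB M ι) (J : ℕ) (l : Fin (2 * J + 1)) : LB M ι :=
  D.shL ((l : ℤ) - J) L

theorem exists_model {L : LB M ι} {i₀ : ι} {R : ℝ}
    (hE : ∀ x, R ≤ |D.f x| → L.P x = Matrix.single i₀ i₀ 1) {J : ℕ} (hJ : R + 2 ≤ J) (k : ℤ) :
    ∃ l : Fin (2 * J + 1), ∀ x, |D.f x| ≤ 2 → L.P (D.sh k x) = (models D L J l).P x := by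
  by_cases hk : |k| ≤ J
  · rw [abs_le] at hk
    refine ⟨⟨(k + J).toNat, by omega⟩, fun x _ => ?_⟩
    rw [models, D.shL_P]
    congr 2
    simp only
    omega
  · refine ⟨⟨2 * J, by omega⟩, fun x hx => ?_⟩
    have h1 : ((2 * J : ℕ) : ℤ) - J = J := by push_cast; ring
    rw [models, D.shL_P]
    simp only
    rw [h1]
    have h2 : ((J : ℤ) : ℝ) ≤ |(k : ℝ)| := by
      have : (J : ℤ) ≤ |k| := by omega
      exact_mod_cast this
    have h2' : ((J : ℤ) : ℝ) = J := by norm_cast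
    rw [hE, hE]
    · rw [D.f_sh]
      have h3 := abs_sub_abs_le_abs_sub (((J : ℤ) : ℝ)) (-(D.f x))
      rw [abs_neg, sub_neg_eq_add, abs_of_nonneg (by positivity : (0 : ℝ) ≤ ((J : ℤ) : ℝ)),
        add_comm] at h3
      linarith
    · rw [D.f_sh]
      have h3 := abs_sub_abs_le_abs_sub ((k : ℤ) : ℝ) (-(D.f x))
      rw [abs_neg, sub_neg_eq_add, add_comm (k : ℝ)] at h3
      linarith

theorem mv_shm {m : ℤ} (hm : m ≠ 0) (q : ℤ) (y : M) : D.mv m (D.sh (m * q) y) = D.mv m y := by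
  have hm' : (m : ℝ) ≠ 0 := by exact_mod_cast hm
  have h1 : D.win m (D.sh (m * q) y) = D.win m y + q := by
    rw [XTData.win, XTData.win, D.f_sh]
    push_cast
    rw [add_div, mul_div_cancel_left₀ _ hm', round_add_intCast]
  rw [XTData.mv, XTData.mv, h1, ← D.sh_add]
  congr 1
  ring

theorem P_mv {L : LB M ι} {i₀ : ι} {R : ℝ} (hE : ∀ x, R ≤ |D.f x| → L.P x = Matrix.single i₀ i₀ 1)
    {m : ℤ} (hm : 0 < m) (hmR : 2 * R + 4 ≤ m) {y : M} (hy : |D.f y| ≤ m / 2 + 2) :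
    L.P (D.mv m y) = L.P y := by
  by_cases h : |D.f y| < m / 2
  · rw [D.mv_eq_self hm h]
  · rw [not_lt] at h
    have h0 : (0 : ℝ) < m := by exact_mod_cast hm
    rw [hE y (by linarith), hE]
    rw [XTData.mv, D.f_sh]
    rcases eq_or_ne (D.win m y) 0 with h1 | h1
    · rw [h1]
      simp only [mul_zero, neg_zero, Int.cast_zero, add_zero]
      linarith
    · have h2 : (1 : ℝ) ≤ |((D.win m y : ℤ) : ℝ)| := by
        have : (1 : ℤ) ≤ |D.win m y| := Int.one_le_abs h1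
        exact_mod_cast this
      have h3 := abs_sub_abs_le_abs_sub ((((m * D.win m y : ℤ)) : ℝ)) (D.f y)
      have h4 : |(((m * D.win m y : ℤ)) : ℝ)| = m * |((D.win m y : ℤ) : ℝ)| := by
        push_cast
        rw [abs_mul, abs_of_pos h0]
      have h5 : |D.f y + ((-(m * D.win m y) : ℤ) : ℝ)| =
          |(((m * D.win m y : ℤ)) : ℝ) - D.f y| := by
        rw [← abs_neg]
        congr 1
        push_cast
        ring
      rw [h5]
      rw [h4] at h3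
      nlinarith

theorem perP_model {L : LB M ι} {i₀ : ι} {R : ℝ}
    (hE : ∀ x, R ≤ |D.f x| → L.P x = Matrix.single i₀ i₀ 1) {L' : LB M ι} {m : ℤ} (hm : 0 < m)
    (hmR : 2 * R + 4 ≤ m) (hL' : ∀ x, L'.P x = L.P (D.mv m x)) (k : ℤ) :
    ∃ k' : ℤ, ∀ x, |D.f x| ≤ 2 → L'.P (D.sh k x) = L.P (D.sh k' x) := by
  have h0 : (0 : ℝ) < m := by exact_mod_cast hm
  set q : ℤ := round ((k : ℝ) / m) with hq
  refine ⟨k - m * q, fun x hx => ?_⟩
  have h1 : D.sh k x = D.sh (m * q) (D.sh (k - m * q) x) := by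
    rw [← D.sh_add]
    congr 1
    ring
  rw [hL', h1, mv_shm hm.ne']
  refine P_mv hE hm hmR ?_
  rw [D.f_sh]
  have h2 := abs_sub_round ((k : ℝ) / m)
  have h3 : (((k - m * q : ℤ)) : ℝ) = m * ((k : ℝ) / m - q) := by
    push_cast
    field_simp
  have h4 : |(((k - m * q : ℤ)) : ℝ)| ≤ m / 2 := by
    rw [h3, abs_mul, abs_of_pos h0]
    nlinarith
  have h5 := abs_add_le (D.f x) (((k - m * q : ℤ)) : ℝ)
  linarith

theorem n1_bdd {L : LB M ι} {i₀ : ι} {a : M → Fin 2 → ℂ} {R N : ℝ} (hN : 0 ≤ N)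
    (hE : D.EndTriv L i₀ a R N) : ∃ A, ∀ x, n1 D.h 0 a x ≤ A := by
  obtain ⟨C, hC⟩ := hE.decay
  refine ⟨|C|, fun x => (hC x).trans ?_⟩
  have h1 : Real.exp (-(N * |D.f x|)) ≤ 1 := Real.exp_le_one_iff.2 (by
    have := mul_nonneg hN (abs_nonneg (D.f x)); linarith)
  calc C * Real.exp (-(N * |D.f x|)) ≤ |C| * Real.exp (-(N * |D.f x|)) := by
        gcongr; exact le_abs_self C
    _ ≤ |C| * 1 := by gcongr
    _ = |C| := mul_one _

theorem per_sh {V : Type*} {u : M → V} {m : ℤ} (hu : ∀ x, u (D.sh m x) = u x) (q : ℤ) (x : M) :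
    u (D.sh (m * q) x) = u x := by
  induction q using Int.induction_on with
  | zero => simp
  | succ n ih =>
    have h1 : m * ((n : ℤ) + 1) = m + m * n := by ring
    rw [h1, D.sh_add, hu, ih]
  | pred n ih =>
    have h1 : m * (-(n : ℤ)) = m + m * (-(n : ℤ) - 1) := by ring
    rw [h1, D.sh_add, hu] at ih
    exact ih

theorem n1_bdd_per {L : LB M ι} {i₀ : ι} {a : M → Fin 2 → ℂ} {R N : ℝ} (hN : 0 ≤ N)
    (hE : D.EndTriv L i₀ a R N) {m₀ : ℕ} {Lm : ℕ → LB M ι} {am : ℕ → M → Fin 2 → ℂ}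
    (hP : D.PerSeq L i₀ a N m₀ Lm am) :
    ∃ A, ∀ m ≥ m₀, ∀ x, n1 D.h 0 (am m) x ≤ A := by
  obtain ⟨A, hA⟩ := n1_bdd hN hE
  obtain ⟨C, hC⟩ := hP.close
  refine ⟨|C| + A, fun m hm x => ?_⟩
  have hm0 : (0 : ℤ) < m := by have := hP.two_le; omega
  have h1 : n1 D.h 0 (am m) x = n1 D.h 0 (am m) (D.mv m x) := by
    have h2 : (fun y => am m (D.sh (m * -(D.win m x)) y)) = am m := by
      funext y
      exact per_sh (hP.pera m hm) _ y
    have h3 := D.n1_comp_sh 0 (m * -(D.win m x)) (am m) x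
    rw [h2] at h3
    rw [h3, XTData.mv]
    congr 2
    ring
  rw [h1]
  set y := D.mv m x with hy
  have h2 : |D.f y| ≤ m / 2 := by
    have := D.abs_f_mv hm0 x
    simpa using this
  have h3 := hC m hm y h2
  have h4 := n1_add_le D.herm 0 (fun z => am m z - a z) a y
  have h5 : (fun (z : M) (i : Fin 2) => (am m z - a z) i + a z i) = am m := by
    funext z i; simp
  rw [h5] at h4
  have h6 : Real.exp (-(N * m / 2)) ≤ 1 := Real.exp_le_one_iff.2 (by
    have : 0 ≤ N * m := by positivity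
    linarith)
  have h7 : C * Real.exp (-(N * m / 2)) ≤ |C| := by
    calc C * Real.exp (-(N * m / 2)) ≤ |C| * Real.exp (-(N * m / 2)) := by
          gcongr; exact le_abs_self C
      _ ≤ |C| * 1 := by gcongr
      _ = |C| := mul_one _
  linarith [hA y]

/-- **Uniform frames and dual frames** for `(L, a)` and the approximating sequence. -/
theorem exists_dframes [T2Space M] (D : XTData M) {L : LB M ι} {i₀ : ι} {a : M → Fin 2 → ℂ}
    {R N : ℝ} (hN : 0 ≤ N) (hE : D.EndTriv L i₀ a R N) {m₀ : ℕ} {Lm : ℕ → LB M ι}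
    {am : ℕ → M → Fin 2 → ℂ} (hP : D.PerSeq L i₀ a N m₀ Lm am) :
    ∃ (𝒰 : PCov D) (C : ℝ) (m₁ : ℕ), 1 ≤ C ∧ m₀ ≤ m₁ ∧
      (∃ s t : Fin 𝒰.N → ℤ → M → EuclideanSpace ℂ ι, ∀ i k, DFrame 𝒰 C i k L a (s i k) (t i k)) ∧
      ∀ m ≥ m₁, ∃ s t : Fin 𝒰.N → ℤ → M → EuclideanSpace ℂ ι,
        (∀ i k, DFrame 𝒰 C i k (Lm m) (am m) (s i k) (t i k)) ∧
        (∀ i k x, s i (k + m) (D.sh m x) = s i k x) ∧
        ∀ i k x, t i (k + m) (D.sh m x) = t i k x := by
  obtain ⟨J, hJ⟩ := exists_nat_ge (R + 2)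
  obtain ⟨𝒰, h𝒰⟩ := exists_frames D (models D L J)
  obtain ⟨A, hA⟩ := n1_bdd hN hE
  obtain ⟨A', hA'⟩ := n1_bdd_per hN hE hP
  obtain ⟨C, hC, hfr⟩ := h𝒰 (max A A')
  obtain ⟨m₂, hm₂⟩ := exists_nat_ge (2 * R + 4)
  have hC0 : 0 < C := by linarith
  have hB : ∀ i, ∀ x ∈ 𝒰.B i 1, |D.f x| ≤ 2 := fun i x hx => 𝒰.f_bd' le_rfl (𝒰.B_sub i 1 hx)
  refine ⟨𝒰, C, max m₀ m₂, hC, le_max_left _ _, ⟨sFr 𝒰 C L a, tFr 𝒰 C L a, fun i k => ?_⟩,
    fun m hm => ⟨sFr 𝒰 C (Lm m) (am m), tFr 𝒰 C (Lm m) (am m), fun i k => ?_, ?_, ?_⟩⟩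
  · refine dframe_of hC0 (hfr i _ _ ?_ ((D.chartMap_sh k).lb_isHol hE.hol) fun x _ => ?_)
    · obtain ⟨l, hl⟩ := exists_model hE.ends hJ k
      exact ⟨l, fun x hx => hl x (hB i x hx)⟩
    · rw [D.n1_comp_sh]
      exact (hA _).trans (le_max_left _ _)
  · have hm0 : m₀ ≤ m := (le_max_left _ _).trans hm
    have hm0' : (0 : ℤ) < m := by have := hP.two_le; omega
    have hmR : 2 * R + 4 ≤ ((m : ℤ) : ℝ) := by
      have h1 : (m₂ : ℝ) ≤ m := by exact_mod_cast (le_max_right m₀ m₂).trans hm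
      push_cast
      linarith
    refine dframe_of hC0 (hfr i _ _ ?_ ((D.chartMap_sh k).lb_isHol (hP.hol m hm0)) fun x _ => ?_)
    · obtain ⟨k', hk'⟩ := perP_model hE.ends hm0' hmR (hP.perP m hm0) k
      obtain ⟨l, hl⟩ := exists_model hE.ends hJ k'
      exact ⟨l, fun x hx => (hk' x (hB i x hx)).trans (hl x (hB i x hx))⟩
    · rw [D.n1_comp_sh]
      exact (hA' m hm0 _).trans (le_max_right _ _)
  · have hm0 : m₀ ≤ m := (le_max_left _ _).trans hm
    have hm0' : (m : ℤ) ≠ 0 := by have := hP.two_le; omega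
    exact sFr_per (fun x => by rw [hP.perP m hm0, hP.perP m hm0, D.mv_sh hm0']) (hP.pera m hm0)
  · have hm0 : m₀ ≤ m := (le_max_left _ _).trans hm
    have hm0' : (m : ℤ) ≠ 0 := by have := hP.two_le; omega
    exact tFr_per (fun x => by rw [hP.perP m hm0, hP.perP m hm0, D.mv_sh hm0']) (hP.pera m hm0)

end

end Vale.Agent.P267.H181
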